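import Vale.Agent.P271.GLOB.Defs

/-!
P271, block GLOB-A: the action on the total space and the scaling of the measure.
-/

open MeasureTheory Filter Topology
open scoped ENNReal NNReal ComplexConjugate

namespace Vale.Agent.P271.Glob

open Vale.Agent.P282.L2 Vale.Agent.P282.L2.Sheets

variable {n N' : ℕ} {S : Sheets n N'} {N e : ℕ} {s t : ℂ} {q : (Fin n → ℂ) × ℂ}

theorem act_fst (t : ℂ) (q : (Fin n → ℂ) × ℂ) : (act N e t q).1 = t ^ N • q.1 := rfl

theorem act_snd (t : ℂ) (q : (Fin n → ℂ) × ℂ) : (act N e t q).2 = t ^ e * q.2 := rfl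

theorem act_one (q : (Fin n → ℂ) × ℂ) : act N e 1 q = q := by
  ext <;> simp [act]

theorem act_act (s t : ℂ) (q : (Fin n → ℂ) × ℂ) :
    act N e s (act N e t q) = act N e (s * t) q := by
  ext <;> simp [act, mul_pow, mul_assoc]

theorem act_inv_act (ht : t ≠ 0) (q : (Fin n → ℂ) × ℂ) : act N e t⁻¹ (act N e t q) = q := by
  rw [act_act, inv_mul_cancel₀ ht, act_one]

theorem act_act_inv (ht : t ≠ 0) (q : (Fin n → ℂ) × ℂ) : act N e t (act N e t⁻¹ q) = q := by
  rw [act_act, mul_inv_cancel₀ ht, act_one]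

theorem continuous_act (t : ℂ) : Continuous (act (n := n) N e t) := by
  unfold act
  fun_prop

theorem continuous_act₂ : Continuous fun x : ℂ × ((Fin n → ℂ) × ℂ) => act N e x.1 x.2 := by
  unfold act
  fun_prop

theorem measurable_act (t : ℂ) : Measurable (act (n := n) N e t) := (continuous_act t).measurable

theorem norm_act_fst (t : ℂ) (q : (Fin n → ℂ) × ℂ) : ‖(act N e t q).1‖ = ‖t‖ ^ N * ‖q.1‖ := by
  rw [act_fst, norm_smul, norm_pow]

/-- invariance of `M` -/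
def Inv (S : Sheets n N') (N e : ℕ) : Prop := ∀ t : ℂ, t ≠ 0 → ∀ q ∈ S.M, act N e t q ∈ S.M

theorem Setup.Inv {p : (Fin n → ℂ) → ℝ} {C : ℝ} {k0 : ℕ}
    (h : Setup S N e p C k0) : Inv S N e := h.mem

theorem Inv.mem_iff (h : Inv S N e) (ht : t ≠ 0) : act N e t q ∈ S.M ↔ q ∈ S.M := by
  refine ⟨fun hq => ?_, h t ht q⟩
  have := h t⁻¹ (inv_ne_zero ht) _ hq
  rwa [act_inv_act ht] at this

/-- translate of a section -/
noncomputable def tsec (N e : ℕ) (t : ℂ) (s : (Fin n → ℂ) → ℂ) : (Fin n → ℂ) → ℂ :=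
  fun z => t ^ e * s ((t ^ N)⁻¹ • z)

theorem tsec_apply (ht : t ≠ 0) (s : (Fin n → ℂ) → ℂ) (z : Fin n → ℂ) :
    act N e t (z, s z) = (t ^ N • z, tsec N e t s (t ^ N • z)) := by
  have h : t ^ N ≠ 0 := pow_ne_zero _ ht
  rw [tsec, smul_smul, inv_mul_cancel₀ h, one_smul]
  rfl

theorem Inv.isSection (h : Inv S N e) (ht : t ≠ 0) {W : Set (Fin n → ℂ)} {s : (Fin n → ℂ) → ℂ}
    (hs : S.IsSection W s) : S.IsSection ((fun z => (t ^ N)⁻¹ • z) ⁻¹' W) (tsec N e t s) := by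
  have hc : t ^ N ≠ 0 := pow_ne_zero _ ht
  have key : ∀ z : Fin n → ℂ, (t ^ N)⁻¹ • z ∈ W → (z, tsec N e t s z) ∈ S.M := by
    intro z hz
    have h1 := h t ht _ (hs.mem_M hz)
    rw [tsec_apply ht] at h1
    rwa [smul_smul, mul_inv_cancel₀ hc, one_smul] at h1
  refine ⟨hs.isOpen.preimage (by fun_prop), fun z hz => (key z hz).1, ?_, fun z hz => (key z hz).2⟩
  have h1 : DifferentiableOn ℂ (fun z : Fin n → ℂ => s ((t ^ N)⁻¹ • z))
      ((fun z => (t ^ N)⁻¹ • z) ⁻¹' W) :=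
    hs.diff.comp (by fun_prop) fun z hz => hz
  exact h1.const_mul _

theorem Inv.holo (h : Inv S N e) (ht : t ≠ 0) {X : (Fin n → ℂ) × ℂ → ℂ} (hX : S.Holo X) :
    S.Holo fun q => X (act N e t q) := by
  intro W s hs
  have h1 := hX _ _ (h.isSection ht hs)
  have hc : t ^ N ≠ 0 := pow_ne_zero _ ht
  have h2 : DifferentiableOn ℂ (fun z : Fin n → ℂ => X (t ^ N • z, tsec N e t s (t ^ N • z))) W :=
    h1.comp (by fun_prop) fun z hz => by
      simp only [Set.mem_preimage]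
      rwa [smul_smul, inv_mul_cancel₀ hc, one_smul]
  refine h2.congr fun z _ => ?_
  simp only [tsec_apply ht]

theorem Inv.cd (h : Inv S N e) (ht : t ≠ 0) {k : ℕ} {X : (Fin n → ℂ) × ℂ → ℂ} (hX : S.CD k X) :
    S.CD k fun q => X (act N e t q) := by
  intro W s hs
  have h1 := hX _ _ (h.isSection ht hs)
  have hc : t ^ N ≠ 0 := pow_ne_zero _ ht
  have h3 : ContDiff ℝ k fun z : Fin n → ℂ => t ^ N • z :=
    ContDiff.smul (f := fun _ => t ^ N) contDiff_const contDiff_id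
  have h2 : ContDiffOn ℝ k (fun z : Fin n → ℂ => X (t ^ N • z, tsec N e t s (t ^ N • z))) W :=
    h1.comp h3.contDiffOn fun z hz => by
      simp only [Set.mem_preimage]
      rwa [smul_smul, inv_mul_cancel₀ hc, one_smul]
  refine h2.congr fun z _ => ?_
  simp only [tsec_apply ht]

/-! ### The measure -/

/-- Multiplication by `c` on `ℂⁿ` multiplies the volume by `|c|^{2n}`. -/
theorem map_smul_volume {c : ℂ} (hc : c ≠ 0) :
    (volume : Measure (Fin n → ℂ)).map (fun z => c • z) =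
      ENNReal.ofReal (‖c‖ ^ (2 * n))⁻¹ • volume := by
  set f : (Fin n → ℂ) →ₗ[ℂ] (Fin n → ℂ) := c • LinearMap.id with hf
  have hdet : LinearMap.det (f.restrictScalars ℝ) = ‖c‖ ^ (2 * n) := by
    rw [LinearMap.det_restrictScalars, hf, LinearMap.det_smul, LinearMap.det_id, mul_one,
      Module.finrank_fin_fun, Algebra.norm_complex_apply, map_pow, Complex.normSq_eq_norm_sq,
      pow_mul]
  have h0 : LinearMap.det (f.restrictScalars ℝ) ≠ 0 := by
    rw [hdet]
    exact pow_ne_zero _ (norm_ne_zero_iff.2 hc)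
  have h1 := Measure.map_linearMap_addHaar_eq_smul_addHaar
    (volume : Measure (Fin n → ℂ)) h0
  rw [hdet, abs_of_nonneg (by positivity)] at h1
  exact h1

theorem lintegral_comp_smul {c : ℂ} (hc : c ≠ 0) (f : (Fin n → ℂ) → ℝ≥0∞) :
    ∫⁻ z, f (c • z) = ENNReal.ofReal (‖c‖ ^ (2 * n))⁻¹ * ∫⁻ z, f z := by
  have he : MeasurableEmbedding fun z : Fin n → ℂ => c • z :=
    (Homeomorph.smulOfNeZero c hc).measurableEmbedding
  rw [← he.lintegral_map, map_smul_volume hc, lintegral_smul_measure, smul_eq_mul]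

theorem Inv.mem_V (h : Inv S N e) (ht : t ≠ 0) (hN' : 0 < N') {z : Fin n → ℂ} (hz : z ∈ S.V) :
    t ^ N • z ∈ S.V := by
  have h1 : (S.fib z).Nonempty := by
    rw [← Finset.card_pos, S.card_fib hz]
    exact hN'
  obtain ⟨w, hw⟩ := h1
  exact (h t ht (z, w) ⟨hz, hw⟩).1

theorem Inv.mem_V_iff (h : Inv S N e) (ht : t ≠ 0) (hN' : 0 < N') {z : Fin n → ℂ} :
    t ^ N • z ∈ S.V ↔ z ∈ S.V := by
  refine ⟨fun hz => ?_, h.mem_V ht hN'⟩
  have h1 := h.mem_V (inv_ne_zero ht) hN' hz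
  rwa [smul_smul, ← mul_pow, inv_mul_cancel₀ ht, one_pow, one_smul] at h1

theorem Inv.fib (h : Inv S N e) (ht : t ≠ 0) (hN' : 0 < N') {z : Fin n → ℂ} (hz : z ∈ S.V) :
    S.fib (t ^ N • z) = (S.fib z).image fun w => t ^ e * w := by
  ext w'
  rw [Finset.mem_image]
  constructor
  · intro hw
    have h1 := h t⁻¹ (inv_ne_zero ht) (t ^ N • z, w') ⟨h.mem_V ht hN' hz, hw⟩
    have h2 : act N e t⁻¹ (t ^ N • z, w') = (z, (t⁻¹) ^ e * w') := by
      refine Prod.ext ?_ rfl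
      rw [act_fst]
      simp only
      rw [smul_smul, ← mul_pow, inv_mul_cancel₀ ht, one_pow, one_smul]
    rw [h2] at h1
    refine ⟨(t⁻¹) ^ e * w', h1.2, ?_⟩
    rw [← mul_assoc, ← mul_pow, mul_inv_cancel₀ ht, one_pow, one_mul]
  · rintro ⟨w, hw, rfl⟩
    exact (h t ht (z, w) ⟨hz, hw⟩).2

theorem lintegral_act_of_measurable (h : Inv S N e) (ht : t ≠ 0) {Ψ : (Fin n → ℂ) × ℂ → ℝ≥0∞}
    (hΨ : Measurable Ψ) :
    ∫⁻ q, Ψ (act N e t q) ∂S.μ =
      ENNReal.ofReal (‖t ^ N‖ ^ (2 * n))⁻¹ * ∫⁻ q, Ψ q ∂S.μ := by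
  classical
  have h00 := lintegral_μ (S := S) (Ψ := fun q => Ψ (act N e t q)) (hΨ.comp (measurable_act t))
  rw [h00, lintegral_μ hΨ]
  rcases Nat.eq_zero_or_pos N' with h0 | hN'
  · have hz : ∀ (Θ : (Fin n → ℂ) × ℂ → ℝ≥0∞), ∫⁻ z in S.V, ∑ w ∈ S.fib z, Θ (z, w) = 0 := by
      intro Θ
      rw [← lintegral_zero (μ := volume.restrict S.V)]
      refine setLIntegral_congr_fun S.isOpen.measurableSet fun z hz => ?_
      have : S.fib z = ∅ := by
        rw [← Finset.card_eq_zero, S.card_fib hz, h0]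
      simp [this]
    rw [hz Ψ, mul_zero, hz fun q => Ψ (act N e t q)]
  · have hc : t ^ N ≠ 0 := pow_ne_zero _ ht
    rw [← lintegral_indicator S.isOpen.measurableSet, ← lintegral_indicator S.isOpen.measurableSet,
      ← lintegral_comp_smul hc]
    refine lintegral_congr fun z => ?_
    by_cases hz : z ∈ S.V
    · rw [Set.indicator_of_mem hz, Set.indicator_of_mem (h.mem_V ht hN' hz),
        h.fib ht hN' hz, Finset.sum_image]
      · rfl
      · intro a _ b _ hab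
        exact mul_left_cancel₀ (pow_ne_zero _ ht) hab
    · rw [Set.indicator_of_notMem hz, Set.indicator_of_notMem]
      rwa [h.mem_V_iff ht hN']

theorem map_act (h : Inv S N e) (ht : t ≠ 0) :
    S.μ.map (act N e t) = ENNReal.ofReal (‖t ^ N‖ ^ (2 * n))⁻¹ • S.μ := by
  ext A hA
  have h1 := lintegral_act_of_measurable (S := S) h ht
    (Ψ := A.indicator 1) (measurable_one.indicator hA)
  rw [Measure.map_apply (measurable_act t) hA, Measure.smul_apply, smul_eq_mul,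
    ← lintegral_indicator_one hA, ← h1, ← lintegral_indicator_one (measurable_act t hA)]
  rfl

theorem lintegral_act (h : Inv S N e) (ht : t ≠ 0) {Ψ : (Fin n → ℂ) × ℂ → ℝ≥0∞}
    (hΨ : AEMeasurable Ψ S.μ) :
    ∫⁻ q, Ψ (act N e t q) ∂S.μ =
      ENNReal.ofReal (‖t ^ N‖ ^ (2 * n))⁻¹ * ∫⁻ q, Ψ q ∂S.μ := by
  rw [← lintegral_map' (f := Ψ) (g := act N e t), map_act h ht, lintegral_smul_measure, smul_eq_mul]
  · rw [map_act h ht]
    exact hΨ.smul_measure _
  · exact (measurable_act t).aemeasurable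

theorem aemeasurable_act (h : Inv S N e) (ht : t ≠ 0) {Ψ : (Fin n → ℂ) × ℂ → ℝ≥0∞}
    (hΨ : AEMeasurable Ψ S.μ) : AEMeasurable (fun q => Ψ (act N e t q)) S.μ := by
  refine AEMeasurable.comp_measurable (g := Ψ) ?_ (measurable_act t)
  rw [map_act h ht]
  exact hΨ.smul_measure _

/-- Rotations preserve the measure. -/
theorem measurePreserving_act (h : Inv S N e) (ht : ‖t‖ = 1) :
    MeasurePreserving (act N e t) S.μ S.μ := by
  have ht0 : t ≠ 0 := by
    rintro rfl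
    simp at ht
  refine ⟨measurable_act t, ?_⟩
  rw [map_act h ht0, norm_pow, ht]
  simp

end Vale.Agent.P271.Glob
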