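import Vale.Agent.P271.GLOB.CondB

/-!
P271, (P3b): the conductor of the regular forms of a graded cone.
-/

namespace Vale.Agent.P271.Glob

open Vale.Agent.P271.Sch Vale.Agent.P271.Sch.GCone Vale.Agent.P271.H741 Vale.Agent.P282.L2

variable {n : ℕ} {C : GCone n}

/-! ### Components -/

open Classical in
/-- The polynomial whose coefficients are the homogeneous components of `x`. -/
noncomputable def cpol (x : C.R) : Polynomial C.K :=
  ∑ m ∈ (DirectSum.decompose C.A x).support,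
    Polynomial.monomial m (algebraMap C.R C.K (DirectSum.decompose C.A x m : C.R))

theorem coeff_cpol (x : C.R) (m : ℕ) :
    (cpol x).coeff m = algebraMap C.R C.K (DirectSum.decompose C.A x m : C.R) := by
  classical
  rw [cpol, Polynomial.finsetSum_coeff]
  simp only [Polynomial.coeff_monomial]
  rw [Finset.sum_ite_eq']
  by_cases h : m ∈ (DirectSum.decompose C.A x).support
  · rw [if_pos h]
  · rw [if_neg h]
    have h1 : DirectSum.decompose C.A x m = 0 := by
      by_contra h2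
      exact h (DFinsupp.mem_support_iff.2 h2)
    rw [h1, ZeroMemClass.coe_zero, map_zero]

theorem eval_cpol (x : C.R) (t : ℂˣ) : (cpol x).eval (algebraMap ℂ C.K t) =
    scK C.A t (algebraMap C.R C.K x) := by
  classical
  conv_rhs => rw [← DirectSum.sum_support_decompose C.A x, map_sum, map_sum]
  rw [cpol, Polynomial.eval_finsetSum]
  refine Finset.sum_congr rfl fun m _ => ?_
  rw [Polynomial.eval_monomial, scK_mem C.A t (SetLike.coe_mem _), map_pow, mul_comm]

theorem infinite_units : {x : C.K | ∃ t : ℂˣ, algebraMap ℂ C.K t = x}.Infinite := by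
  have h1 : Function.Injective (fun t : ℂˣ => algebraMap ℂ C.K (t : ℂ)) := fun s t h =>
    Units.ext ((algebraMap ℂ C.K).injective h)
  have h2 : Infinite ℂˣ := Infinite.of_injective
    (fun k : ℕ => Units.mk0 ((k : ℂ) + 1) (Nat.cast_add_one_ne_zero k)) fun a b h => by
      have h3 := congrArg Units.val h
      simpa using h3
  exact Set.infinite_range_of_injective h1

/-- A homogeneous rational function which is regular at `φ₀` has a homogeneous denominator. -/
theorem exists_comp {κ : C.K} {d : ℤ}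
    (hκ : ∀ t : ℂˣ, scK C.A t κ = algebraMap ℂ C.K ((t : ℂ) ^ d) * κ) {φ₀ : C.Pt}
    (h : RegAt φ₀ κ) : ∃ (i : ℕ) (v : C.R), v ∈ C.A i ∧ φ₀ v ≠ 0 ∧ v ∈ denIdeal κ := by
  classical
  obtain ⟨a, b, hb, hab⟩ := h
  have h1 : ∃ m, φ₀ (DirectSum.decompose C.A b m : C.R) ≠ 0 := by
    by_contra hne
    push Not at hne
    apply hb
    rw [← DirectSum.sum_support_decompose C.A b, map_sum]
    exact Finset.sum_eq_zero fun m _ => hne m
  obtain ⟨m, hm⟩ := h1
  refine ⟨m, _, (DirectSum.decompose C.A b m).2, hm, ?_⟩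
  have key : ∀ t : ℂˣ, algebraMap ℂ C.K ((t : ℂ) ^ d) * κ * (cpol b).eval (algebraMap ℂ C.K t) =
      (cpol a).eval (algebraMap ℂ C.K t) := by
    intro t
    rw [eval_cpol, eval_cpol, ← hab, map_mul, hκ]
  rcases d with δ | δ
  · have h2 : Polynomial.X ^ δ * (Polynomial.C κ * cpol b) = cpol a := by
      refine Polynomial.eq_of_infinite_eval_eq _ _ (infinite_units.mono ?_)
      rintro _ ⟨t, rfl⟩
      show Polynomial.eval _ _ = Polynomial.eval _ _
      rw [← key t, Polynomial.eval_mul, Polynomial.eval_mul, Polynomial.eval_pow,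
        Polynomial.eval_X, Polynomial.eval_C, Int.ofNat_eq_natCast, zpow_natCast, map_pow]
      ring
    have h3 := congrArg (fun p => Polynomial.coeff p (m + δ)) h2
    simp only [Polynomial.coeff_X_pow_mul, Polynomial.coeff_C_mul, coeff_cpol] at h3
    exact ⟨_, by rw [mul_comm]; exact h3⟩
  · have h2 : Polynomial.C κ * cpol b = Polynomial.X ^ (δ + 1) * cpol a := by
      refine Polynomial.eq_of_infinite_eval_eq _ _ (infinite_units.mono ?_)
      rintro _ ⟨t, rfl⟩
      show Polynomial.eval _ _ = Polynomial.eval _ _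
      have h0 : algebraMap ℂ C.K (t : ℂ) ≠ 0 := by
        rw [Ne, FaithfulSMul.algebraMap_eq_zero_iff]
        exact t.ne_zero
      rw [Polynomial.eval_mul, Polynomial.eval_mul, ← key t, Polynomial.eval_pow,
        Polynomial.eval_X, Polynomial.eval_C, zpow_negSucc, map_inv₀, map_pow]
      field_simp
    have h3 := congrArg (fun p => Polynomial.coeff p m) h2
    simp only [Polynomial.coeff_X_pow_mul', Polynomial.coeff_C_mul, coeff_cpol] at h3
    by_cases hδ : δ + 1 ≤ m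
    · rw [if_pos hδ] at h3
      exact ⟨_, by rw [mul_comm]; exact h3⟩
    · rw [if_neg hδ] at h3
      exact ⟨0, by rw [mul_comm, h3, map_zero]⟩

/-! ### The conductor -/

/-- The form `f dz_0 ∧ … ∧ dz_n` is regular outside the vertex. -/
def RegForm (z : Fin (n + 1) → C.R) (f : C.K) : Prop :=
  ∀ φ : C.Pt, NV φ → ∀ D : Fin (n + 1) → Derivation ℂ C.K C.K, (∀ k, RegDer φ (D k)) →
    RegAt φ (f * GCone.jac z D)

/-- A derivation of `K` which maps `R` into itself. -/
def PresR (D : Derivation ℂ C.K C.K) : Prop :=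
  ∀ r : C.R, ∃ s : C.R, D (algebraMap C.R C.K r) = algebraMap C.R C.K s

theorem PresR.regDer {D : Derivation ℂ C.K C.K} (hD : PresR D) (φ : C.Pt) : RegDer φ D := by
  rintro f ⟨a, b, hb, hab⟩
  obtain ⟨a', ha'⟩ := hD a
  obtain ⟨b', hb'⟩ := hD b
  refine ⟨a' * b - a * b', b * b, by rw [map_mul]; exact mul_ne_zero hb hb, ?_⟩
  have h1 : D (f * algebraMap C.R C.K b) = algebraMap C.R C.K a' := by rw [hab, ha']
  rw [Derivation.leibniz, smul_eq_mul, smul_eq_mul, hb'] at h1
  rw [map_mul, map_sub, map_mul, map_mul, ← h1, ← hab]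
  ring

theorem presR_of_gens {r : ℕ} (x : H989.Gens C.A r) {D : Derivation ℂ C.K C.K}
    (h : ∀ j, ∃ s : C.R, D (algebraMap C.R C.K (x.x j)) = algebraMap C.R C.K s) : PresR D := by
  intro a
  have ha : a ∈ Algebra.adjoin ℂ (Set.range x.x) := by rw [x.gen]; trivial
  induction ha using Algebra.adjoin_induction with
  | mem a ha =>
    obtain ⟨j, rfl⟩ := ha
    exact h j
  | algebraMap c =>
    refine ⟨0, ?_⟩
    rw [← IsScalarTower.algebraMap_apply ℂ C.R C.K, Derivation.map_algebraMap, map_zero]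
  | add a b _ _ ha hb =>
    obtain ⟨s, hs⟩ := ha
    obtain ⟨t, ht⟩ := hb
    exact ⟨s + t, by rw [map_add, map_add, hs, ht, map_add]⟩
  | mul a b _ _ ha hb =>
    obtain ⟨s, hs⟩ := ha
    obtain ⟨t, ht⟩ := hb
    exact ⟨a * t + b * s, by
      rw [map_mul, Derivation.leibniz, hs, ht, smul_eq_mul, smul_eq_mul, map_add, map_mul,
        map_mul]⟩

variable [Algebra (Pol (n + 1)) C.K] [IsScalarTower ℂ (Pol (n + 1)) C.K]
  [FaithfulSMul (Pol (n + 1)) C.K] (V : Cov C)

/-- **The conductor.** There are derivations `D_k` of `R` (`D_k = v ∂/∂z_k`) and `u ∈ R` such that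
`T = u det (D_i z_j)` is homogeneous, invertible at `φ₀`, and `T f ∈ R` for all regular forms
`f dz_0 ∧ … ∧ dz_n`. -/
theorem exists_cond {φ₀ : C.Pt} (h₀ : NV φ₀) {D0 : Fin (n + 1) → Derivation ℂ C.K C.K}
    (hD0 : ∀ k, RegDer φ₀ (D0 k)) (hJ : GCone.jac V.z D0 ≠ 0) (hJr : RegAt φ₀ (GCone.jac V.z D0)⁻¹)
    (hb : ∃ b : C.R, b ≠ 0 ∧ ∀ g : C.K, (∀ φ : C.Pt, NV φ → RegAt φ g) →
      ∃ r : C.R, algebraMap C.R C.K b * g = algebraMap C.R C.K r) :
    ∃ (D : Fin (n + 1) → Derivation ℂ C.K C.K) (u v w : C.R) (i j k : ℕ), (∀ k, PresR (D k)) ∧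
      u ∈ C.A i ∧ v ∈ C.A j ∧ w ∈ C.A k ∧
      (∀ i j, D i (algebraMap C.R C.K (V.z j)) = if i = j then algebraMap C.R C.K v else 0) ∧
      φ₀ u ≠ 0 ∧ φ₀ v ≠ 0 ∧ φ₀ w ≠ 0 ∧ w = u * v ^ (n + 1) ∧
      algebraMap C.R C.K u * GCone.jac V.z D = algebraMap C.R C.K w ∧
      ∀ f, RegForm V.z f → ∃ g : C.R, algebraMap C.R C.K w * f = algebraMap C.R C.K g := by
  classical
  obtain ⟨d, hdz, hdr⟩ := exists_partials V hD0 hJ hJr
  obtain ⟨r, ⟨x⟩⟩ := H989.exists_gens C.A C.finiteType C.zero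
  -- the denominators
  have h1 : ∀ (k : Fin (n + 1)) (j : Fin r), ∃ (i : ℕ) (v : C.R), v ∈ C.A i ∧ φ₀ v ≠ 0 ∧
      v ∈ denIdeal (d k (algebraMap C.R C.K (x.x j))) := fun k j =>
    exists_comp (partial_hom V hdz k (x.mem j)) (hdr k (x.x j))
  choose i v hv hv0 hvd using h1
  set v₀ : C.R := ∏ p : Fin (n + 1) × Fin r, v p.1 p.2 with hv₀
  have hv₀m : v₀ ∈ C.A (∑ p : Fin (n + 1) × Fin r, i p.1 p.2) :=
    SetLike.prod_mem_graded C.A _ _ fun p _ => hv p.1 p.2
  have hv₀0 : φ₀ v₀ ≠ 0 := by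
    rw [hv₀, map_prod]
    exact Finset.prod_ne_zero_iff.2 fun p _ => hv0 p.1 p.2
  have hv₀d : ∀ k j, v₀ ∈ denIdeal (d k (algebraMap C.R C.K (x.x j))) := by
    intro k j
    rw [hv₀, ← Finset.mul_prod_erase Finset.univ (fun p : Fin (n + 1) × Fin r => v p.1 p.2)
      (Finset.mem_univ (k, j)), mul_comm]
    exact Ideal.mul_mem_left _ _ (hvd k j)
  -- the derivations
  let D : Fin (n + 1) → Derivation ℂ C.K C.K := fun k => algebraMap C.R C.K v₀ • d k
  have hDa : ∀ k a, D k a = algebraMap C.R C.K v₀ * d k a := fun k a => rfl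
  have hDz : ∀ i j, D i (algebraMap C.R C.K (V.z j)) =
      if i = j then algebraMap C.R C.K v₀ else 0 := by
    intro i j
    rw [hDa, hdz]
    split_ifs <;> simp
  have hDR : ∀ k, PresR (D k) := by
    intro k
    refine presR_of_gens x fun j => ?_
    obtain ⟨s, hs⟩ := hv₀d k j
    exact ⟨s, hs⟩
  have hjac : GCone.jac V.z D = algebraMap C.R C.K (v₀ ^ (n + 1)) := by
    have h2 : (Matrix.of fun i j => D i (algebraMap C.R C.K (V.z j))) =
        algebraMap C.R C.K v₀ • (1 : Matrix (Fin (n + 1)) (Fin (n + 1)) C.K) := by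
      ext i j
      rw [Matrix.of_apply, hDz, Matrix.smul_apply, Matrix.one_apply, smul_eq_mul]
      split_ifs <;> simp
    rw [GCone.jac, h2, Matrix.det_smul, Matrix.det_one, mul_one, Fintype.card_fin, map_pow]
  -- the power of the homogeneous element
  obtain ⟨k, hk, s, hs, hs0⟩ := h₀
  obtain ⟨m, hm⟩ := exists_pow_mul hb hk hs
  refine ⟨D, s ^ m, v₀, s ^ m * v₀ ^ (n + 1), _, _, _, hDR,
    SetLike.pow_mem_graded m hs, hv₀m,
    SetLike.mul_mem_graded (SetLike.pow_mem_graded m hs) (SetLike.pow_mem_graded (n + 1) hv₀m),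
    hDz, ?_, hv₀0, ?_, rfl, ?_, fun f hf => ?_⟩
  · rw [map_pow]; exact pow_ne_zero _ hs0
  · rw [map_mul, map_pow, map_pow]
    exact mul_ne_zero (pow_ne_zero _ hs0) (pow_ne_zero _ hv₀0)
  · rw [hjac, map_mul]
  · obtain ⟨r, hr⟩ := hm (f * GCone.jac V.z D) (fun φ hφ => hf φ hφ D fun k => (hDR k).regDer φ)
    refine ⟨r, ?_⟩
    rw [← hr, hjac, map_mul]
    ring

end Vale.Agent.P271.Glob
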