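import Vale.Agent.P271.Sch.Hub

/-!
P271, (P3b): rational functions which are regular outside the vertex of a graded cone.
-/

namespace Vale.Agent.P271.Glob

open Vale.Agent.P271.Sch Vale.Agent.P271.Sch.GCone

variable {n : ℕ} {C : GCone n}

/-- The subring of the rational functions which are regular at `φ`. -/
def regRing (φ : C.Pt) : Subring C.K where
  carrier := {f | RegAt φ f}
  mul_mem' := by
    rintro f g ⟨a, b, hb, h⟩ ⟨a', b', hb', h'⟩
    refine ⟨a * a', b * b', by rw [map_mul]; exact mul_ne_zero hb hb', ?_⟩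
    rw [map_mul, map_mul, ← h, ← h']
    ring
  one_mem' := ⟨1, 1, by simp, by simp⟩
  add_mem' := by
    rintro f g ⟨a, b, hb, h⟩ ⟨a', b', hb', h'⟩
    refine ⟨a * b' + a' * b, b * b', by rw [map_mul]; exact mul_ne_zero hb hb', ?_⟩
    rw [map_mul, map_add, map_mul, map_mul, ← h, ← h']
    ring
  zero_mem' := ⟨0, 1, by simp, by simp⟩
  neg_mem' := by
    rintro f ⟨a, b, hb, h⟩
    exact ⟨-a, b, hb, by rw [map_neg, ← h]; ring⟩

theorem mem_regRing {φ : C.Pt} {f : C.K} : f ∈ regRing φ ↔ RegAt φ f := Iff.rfl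

theorem regAt_alg (φ : C.Pt) (r : C.R) : RegAt φ (algebraMap C.R C.K r) := ⟨r, 1, by simp, by simp⟩

theorem regAt_inv {φ : C.Pt} {r : C.R} (h : φ r ≠ 0) : RegAt φ (algebraMap C.R C.K r)⁻¹ := by
  refine ⟨1, r, h, ?_⟩
  have : algebraMap C.R C.K r ≠ 0 := by
    intro h0
    have h1 : r = 0 := IsFractionRing.injective C.R C.K (by rw [h0, map_zero])
    rw [h1, map_zero] at h
    exact h rfl
  rw [inv_mul_cancel₀ this, map_one]

theorem regAt_mul {φ : C.Pt} {f g : C.K} (hf : RegAt φ f) (hg : RegAt φ g) : RegAt φ (f * g) :=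
  (regRing φ).mul_mem hf hg

/-- Maximal ideals are points. -/
theorem exists_pt (p : Ideal C.R) [hp : p.IsMaximal] : ∃ φ : C.Pt, ∀ r, φ r = 0 ↔ r ∈ p := by
  have := C.finiteType
  let _ : Field (C.R ⧸ p) := Ideal.Quotient.field p
  have h1 : Algebra.FiniteType ℂ (C.R ⧸ p) :=
    Algebra.FiniteType.of_surjective (Ideal.Quotient.mkₐ ℂ p) (Ideal.Quotient.mkₐ_surjective ℂ p)
  have h2 : Module.Finite ℂ (C.R ⧸ p) := finite_of_finite_type_of_isJacobsonRing ℂ (C.R ⧸ p)
  have h3 : Function.Bijective (algebraMap ℂ (C.R ⧸ p)) :=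
    IsAlgClosed.algebraMap_bijective_of_isIntegral
  let e : (C.R ⧸ p) ≃ₐ[ℂ] ℂ := (AlgEquiv.ofBijective (Algebra.ofId ℂ (C.R ⧸ p)) h3).symm
  refine ⟨(e : (C.R ⧸ p) →ₐ[ℂ] ℂ).comp (Ideal.Quotient.mkₐ ℂ p), fun r => ?_⟩
  rw [← Ideal.Quotient.eq_zero_iff_mem]
  show e (Ideal.Quotient.mk p r) = 0 ↔ _
  rw [EmbeddingLike.map_eq_zero_iff]

/-- The ideal of denominators. -/
def denIdeal (g : C.K) : Ideal C.R where
  carrier := {a | ∃ r, algebraMap C.R C.K a * g = algebraMap C.R C.K r}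
  add_mem' := by
    rintro a b ⟨r, hr⟩ ⟨s, hs⟩
    exact ⟨r + s, by rw [map_add, map_add, add_mul, hr, hs]⟩
  zero_mem' := ⟨0, by simp⟩
  smul_mem' := by
    rintro c a ⟨r, hr⟩
    exact ⟨c * r, by rw [smul_eq_mul, map_mul, map_mul, mul_assoc, hr]⟩

theorem mem_denIdeal {g : C.K} {a : C.R} :
    a ∈ denIdeal g ↔ ∃ r, algebraMap C.R C.K a * g = algebraMap C.R C.K r := Iff.rfl

/-- The Nullstellensatz: a homogeneous element of positive degree has a power in the ideal of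
denominators of a function which is regular outside the vertex. -/
theorem exists_pow_mem {s : C.R} {k : ℕ} (hk : 0 < k) (hs : s ∈ C.A k) {g : C.K}
    (hg : ∀ φ : C.Pt, NV φ → RegAt φ g) : ∃ m : ℕ, s ^ m ∈ denIdeal g := by
  have := C.finiteType
  have hJ : IsJacobsonRing C.R := isJacobsonRing_of_finiteType (A := ℂ)
  have h1 : s ∈ (denIdeal g).radical := by
    rw [Ideal.radical_eq_jacobson, Ideal.jacobson, Ideal.mem_sInf]
    rintro p ⟨hp, hpm⟩
    obtain ⟨φ, hφ⟩ := exists_pt p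
    by_contra hsp
    have hs0 : φ s ≠ 0 := fun h => hsp ((hφ s).1 h)
    obtain ⟨a, b, hb, hab⟩ := hg φ ⟨k, hk, s, hs, hs0⟩
    have h2 : b ∈ denIdeal g := ⟨a, by rw [mul_comm]; exact hab⟩
    exact hb ((hφ b).2 (hp h2))
  exact h1

/-- A uniform version. -/
theorem exists_pow_mul (hb : ∃ b : C.R, b ≠ 0 ∧ ∀ g : C.K, (∀ φ : C.Pt, NV φ → RegAt φ g) →
      ∃ r : C.R, algebraMap C.R C.K b * g = algebraMap C.R C.K r)
    {s : C.R} {k : ℕ} (hk : 0 < k) (hs : s ∈ C.A k) :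
    ∃ m : ℕ, ∀ g : C.K, (∀ φ : C.Pt, NV φ → RegAt φ g) →
      ∃ r : C.R, algebraMap C.R C.K (s ^ m) * g = algebraMap C.R C.K r := by
  have := C.finiteType
  have hN : IsNoetherianRing C.R := Algebra.FiniteType.isNoetherianRing ℂ C.R
  obtain ⟨b, hb0, hb⟩ := hb
  have hbK : algebraMap C.R C.K b ≠ 0 := by
    intro h0
    exact hb0 (IsFractionRing.injective C.R C.K (by rw [h0, map_zero]))
  -- the ideal `b M`
  let I : Ideal C.R :=
    { carrier := {r | ∀ φ : C.Pt, NV φ → RegAt φ ((algebraMap C.R C.K b)⁻¹ * algebraMap C.R C.K r)}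
      add_mem' := by
        intro r s hr hs φ hφ
        rw [map_add, mul_add]
        exact (regRing φ).add_mem (hr φ hφ) (hs φ hφ)
      zero_mem' := by
        intro φ hφ
        rw [map_zero, mul_zero]
        exact (regRing φ).zero_mem
      smul_mem' := by
        intro c r hr φ hφ
        rw [smul_eq_mul, map_mul, mul_left_comm]
        exact (regRing φ).mul_mem (regAt_alg φ c) (hr φ hφ) }
  obtain ⟨F, hF⟩ := (isNoetherianRing_iff_ideal_fg C.R).1 hN I
  have h1 : ∀ r : C.R, ∃ m : ℕ, r ∈ I → s ^ m ∈ denIdeal ((algebraMap C.R C.K b)⁻¹ *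
      algebraMap C.R C.K r) := by
    intro r
    by_cases hr : r ∈ I
    · obtain ⟨m, hm⟩ := exists_pow_mem hk hs hr
      exact ⟨m, fun _ => hm⟩
    · exact ⟨0, fun h => absurd h hr⟩
  choose m hm using h1
  refine ⟨∑ r ∈ F, m r, fun g hg => ?_⟩
  obtain ⟨r, hr⟩ := hb g hg
  have hg' : g = (algebraMap C.R C.K b)⁻¹ * algebraMap C.R C.K r := by
    rw [← hr, ← mul_assoc, inv_mul_cancel₀ hbK, one_mul]
  have hrI : r ∈ I := by
    intro φ hφ
    rw [← hg']
    exact hg φ hφ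
  -- the elements `r` for which the claim is true form an ideal
  let Q : Ideal C.R :=
    { carrier := {r | s ^ (∑ r ∈ F, m r) ∈ denIdeal ((algebraMap C.R C.K b)⁻¹ *
        algebraMap C.R C.K r)}
      add_mem' := by
        rintro r r' ⟨c, hc⟩ ⟨c', hc'⟩
        exact ⟨c + c', by rw [map_add, map_add, mul_add, mul_add, hc, hc']⟩
      zero_mem' := ⟨0, by simp⟩
      smul_mem' := by
        rintro c r ⟨c', hc'⟩
        refine ⟨c * c', ?_⟩
        rw [smul_eq_mul, map_mul, map_mul, ← hc']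
        ring }
  have h2 : I ≤ Q := by
    rw [← hF, Ideal.span_le]
    intro r hr
    have hrI : r ∈ I := by rw [← hF]; exact Ideal.subset_span hr
    show s ^ (∑ r ∈ F, m r) ∈ denIdeal _
    have h3 : m r ≤ ∑ r ∈ F, m r :=
      Finset.single_le_sum (f := m) (fun _ _ => Nat.zero_le _) hr
    rw [← Nat.sub_add_cancel h3, pow_add]
    exact Ideal.mul_mem_left _ _ (hm r hrI)
  obtain ⟨c, hc⟩ := h2 hrI
  exact ⟨c, by rw [hg', hc]⟩

end Vale.Agent.P271.Glob
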