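import Vale.Agent.P271.GLOB.CondA
import Vale.Agent.P271.H741.Cov
import Vale.Agent.P271.Sch.Der
import Vale.Agent.P271.H989.Gens

/-!
P271, (P3b): the partial derivatives `∂/∂z_k` of the fraction field of a graded cone, homogeneity,
denominators.
-/

namespace Vale.Agent.P271.Glob

open Vale.Agent.P271.Sch Vale.Agent.P271.Sch.GCone Vale.Agent.P271.H741 Vale.Agent.P282.L2

variable {n : ℕ} {C : GCone n} [Algebra (Pol (n + 1)) C.K] [IsScalarTower ℂ (Pol (n + 1)) C.K]
  [FaithfulSMul (Pol (n + 1)) C.K] (V : Cov C)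

/-- A derivation which vanishes on the coordinates is zero. -/
theorem der_unique (v : Derivation ℂ C.K C.K)
    (hv : ∀ i, v (algebraMap C.R C.K (V.z i)) = 0) : v = 0 := by
  have h1 : v.compAlgebraMap (Pol (n + 1)) = 0 := by
    refine MvPolynomial.derivation_ext fun i => ?_
    show v (algebraMap (Pol (n + 1)) C.K (MvPolynomial.X i)) = 0
    rw [V.hz]
    exact hv i
  have h2 : ∀ f : Pol (n + 1), v (algebraMap (Pol (n + 1)) C.K f) = 0 := fun f =>
    congrArg (fun w => w f) h1
  let v' : Derivation (Pol (n + 1)) C.K C.K :=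
    Derivation.mk'
      { toFun := v
        map_add' := fun a b => map_add v a b
        map_smul' := fun f a => by
          rw [Algebra.smul_def, Derivation.leibniz, h2, smul_zero, add_zero, smul_eq_mul,
            RingHom.id_apply, Algebra.smul_def] }
      (fun a b => v.leibniz a b)
  have h3 : ∀ a, v' a = v a := fun _ => rfl
  have h4 : v' V.E.y = 0 := by
    have h5 := v'.map_aeval (minpoly (Pol (n + 1)) V.E.y) V.E.y
    rw [minpoly.aeval, map_zero, smul_eq_mul] at h5
    exact (mul_eq_zero.1 h5.symm).resolve_left Prim.aeval_derivative_ne_zero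
  ext a
  rw [Derivation.zero_apply]
  obtain ⟨f, c, hc, hf⟩ := V.E.gen a
  have h5 : v' (algebraMap (Pol (n + 1)) C.K c * a) = 0 := by
    rw [hf, v'.map_aeval, h4, smul_zero]
  rw [h3, Derivation.leibniz, h2, smul_zero, add_zero, smul_eq_mul] at h5
  refine (mul_eq_zero.1 h5).resolve_left fun h6 => hc ?_
  rwa [FaithfulSMul.algebraMap_eq_zero_iff] at h6

omit [IsScalarTower ℂ (Pol (n + 1)) C.K] [FaithfulSMul (Pol (n + 1)) C.K] in
/-- The partial derivatives. -/
theorem exists_partials {φ₀ : C.Pt} {D0 : Fin (n + 1) → Derivation ℂ C.K C.K}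
    (hD0 : ∀ k, RegDer φ₀ (D0 k)) (hJ : GCone.jac V.z D0 ≠ 0) (hJr : RegAt φ₀ (GCone.jac V.z D0)⁻¹) :
    ∃ d : Fin (n + 1) → Derivation ℂ C.K C.K,
      (∀ k j, d k (algebraMap C.R C.K (V.z j)) = if k = j then 1 else 0) ∧
        ∀ k (r : C.R), RegAt φ₀ (d k (algebraMap C.R C.K r)) := by
  classical
  let M : Matrix (Fin (n + 1)) (Fin (n + 1)) C.K :=
    Matrix.of fun i j => D0 i (algebraMap C.R C.K (V.z j))
  have hM : M.det = GCone.jac V.z D0 := rfl
  have hdet : IsUnit M.det := by rw [hM]; exact hJ.isUnit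
  have hreg : ∀ i j, M i j ∈ regRing φ₀ := fun i j => hD0 i _ (regAt_alg φ₀ _)
  let M' : Matrix (Fin (n + 1)) (Fin (n + 1)) (regRing φ₀) := Matrix.of fun i j => ⟨M i j, hreg i j⟩
  have hM' : (regRing φ₀).subtype.mapMatrix M' = M := by
    ext i j
    rfl
  have hadj : ∀ i j, M.adjugate i j ∈ regRing φ₀ := by
    intro i j
    have h1 := RingHom.map_adjugate (regRing φ₀).subtype M'
    rw [hM'] at h1
    rw [← h1]
    exact (M'.adjugate i j).2
  have hinv : ∀ i j, M⁻¹ i j ∈ regRing φ₀ := by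
    intro i j
    rw [Matrix.inv_def, Ring.inverse_eq_inv', Matrix.smul_apply, smul_eq_mul, hM]
    exact (regRing φ₀).mul_mem hJr (hadj i j)
  have happ : ∀ k a, (∑ i, M⁻¹ k i • D0 i) a = ∑ i, M⁻¹ k i * D0 i a := by
    intro k a
    have h1 := map_sum (Derivation.coeFnAddMonoidHom (R := ℂ) (A := C.K) (M := C.K))
      (fun i => M⁻¹ k i • D0 i) Finset.univ
    have h2 := congrArg (fun f => f a) h1
    simp only [Finset.sum_apply] at h2
    exact h2
  refine ⟨fun k => ∑ i, M⁻¹ k i • D0 i, fun k j => ?_, fun k r => ?_⟩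
  · rw [happ]
    have h1 : (M⁻¹ * M) k j = (1 : Matrix (Fin (n + 1)) (Fin (n + 1)) C.K) k j := by
      rw [Matrix.nonsing_inv_mul M hdet]
    rw [Matrix.mul_apply, Matrix.one_apply] at h1
    exact h1
  · rw [happ]
    refine (regRing φ₀).sum_mem fun i _ => ?_
    exact (regRing φ₀).mul_mem (hinv k i) (hD0 i _ (regAt_alg φ₀ _))

/-- The partial derivatives are homogeneous of degree `-N`. -/
theorem partial_hom {d : Fin (n + 1) → Derivation ℂ C.K C.K}
    (hd : ∀ k j, d k (algebraMap C.R C.K (V.z j)) = if k = j then 1 else 0) (k : Fin (n + 1))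
    {m : ℕ} {a : C.R} (ha : a ∈ C.A m) : V.G.Hom (d k (algebraMap C.R C.K a)) ((m : ℤ) - V.N) := by
  intro t
  have ht : (t : ℂ) ≠ 0 := t.ne_zero
  have h0 : algebraMap ℂ C.K ((t : ℂ) ^ V.N) ≠ 0 := by
    rw [Ne, FaithfulSMul.algebraMap_eq_zero_iff]
    exact pow_ne_zero _ ht
  have hc : ∀ c : ℂ, d k (algebraMap ℂ C.K c) = 0 := fun c => (d k).map_algebraMap c
  have h1 := der_eq_zero_of_coords (k := ℂ) (K := C.K) (F := C.K) (n := n + 1)
    (t := fun i => algebraMap C.R C.K (V.z i)) (fun v hv => der_unique V v hv)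
    ((V.G.τ t : C.K →ₐ[ℂ] C.K) : C.K →+* C.K)
    (fun x => algebraMap ℂ C.K ((t : ℂ) ^ V.N) * V.G.τ t (d k x) - d k (V.G.τ t x))
    (fun x y => by rw [map_add, map_add, map_add, map_add]; ring)
    (fun x y => by
      simp only [map_mul, Derivation.leibniz, smul_eq_mul, map_add, RingHom.coe_coe]
      ring)
    (fun c => by simp only [AlgHom.commutes, hc, map_zero, mul_zero, sub_zero])
    (fun i => by
      have h2 := V.hom_alg (V.z_mem i) t
      rw [zpow_natCast] at h2
      rw [h2, Derivation.leibniz, hc, smul_zero, add_zero, smul_eq_mul, hd]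
      by_cases hki : k = i
      · rw [if_pos hki, map_one]; ring
      · rw [if_neg hki, map_zero]; ring)
    (algebraMap C.R C.K a)
  have h2 := V.hom_alg ha t
  rw [zpow_natCast] at h2
  rw [h2, Derivation.leibniz, hc, smul_zero, add_zero, smul_eq_mul, sub_eq_zero] at h1
  refine mul_left_cancel₀ h0 ?_
  rw [h1, ← mul_assoc, ← map_mul]
  congr 2
  rw [zpow_sub₀ ht, zpow_natCast, zpow_natCast]
  field_simp

end Vale.Agent.P271.Glob
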