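import Vale.Agent.P282.Bd3.B1

/-!
P271, block GLOB-A: the global `L²` theorem on a finite étale cover with a `ℂˣ`-action: statement.
-/

open MeasureTheory Filter Topology
open scoped ENNReal NNReal ComplexConjugate

namespace Vale.Agent.P271.Glob

open Vale.Agent.P282.L2

variable {n N' : ℕ}

/-- The action `t • (z, w) = (t^N z, t^e w)` on `ℂⁿ × ℂ`. -/
def act (N e : ℕ) (t : ℂ) (q : (Fin n → ℂ) × ℂ) : (Fin n → ℂ) × ℂ :=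
  (fun j => t ^ N * q.1 j, t ^ e * q.2)

/-- `X` has polynomial growth. -/
def Grow (S : Sheets n N') (p : (Fin n → ℂ) → ℝ) (X : (Fin n → ℂ) × ℂ → ℂ) : Prop :=
  ∃ (c : ℝ) (k : ℕ), ∀ q ∈ S.M, ‖X q‖ ≤ c * (1 + p q.1) ^ k

/-- `X` is bounded over the bounded subsets of `ℂⁿ`. -/
def LocB (S : Sheets n N') (X : (Fin n → ℂ) × ℂ → ℝ) : Prop :=
  ∀ R : ℝ, ∃ b : ℝ, ∀ q ∈ S.M, ‖q.1‖ ≤ R → X q ≤ b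

/-- The total space `M` is invariant under the action. -/
structure Setup (S : Sheets n N') (N e : ℕ) (p : (Fin n → ℂ) → ℝ) (C : ℝ) (k0 : ℕ) : Prop where
  N_pos : 0 < N
  mem : ∀ t : ℂ, t ≠ 0 → ∀ q ∈ S.M, act N e t q ∈ S.M
  exh : Exh S.V p C k0

/-- Invariant holomorphic functions `ξ_k` on `M` (they define the tubes around an orbit) and a
homogeneous function `X₀` of degree `K` without zeros on `M` such that `X₀` and `X₀ ξ_k` are bounded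
over the bounded sets of `ℂⁿ`. -/
structure Coord (S : Sheets n N') (N e : ℕ) (p : (Fin n → ℂ) → ℝ) {r : ℕ}
    (ξ : Fin r → (Fin n → ℂ) × ℂ → ℂ) (X₀ : (Fin n → ℂ) × ℂ → ℂ) (K : ℕ) : Prop where
  holo : ∀ k, S.Holo (ξ k)
  inv : ∀ k, ∀ t : ℂ, t ≠ 0 → ∀ q ∈ S.M, ξ k (act N e t q) = ξ k q
  grow : ∀ k j, Grow S p (S.D j (ξ k))
  loc : ∀ k, LocB S (fun q => ‖X₀ q * ξ k q‖)
  K_pos : 0 < K
  X_holo : S.Holo X₀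
  X_ne : ∀ q ∈ S.M, X₀ q ≠ 0
  X_hom : ∀ t : ℂ, t ≠ 0 → ∀ q ∈ S.M, X₀ (act N e t q) = t ^ K * X₀ q
  X_grow : Grow S p (fun q => (X₀ q)⁻¹)
  X_loc : LocB S (fun q => ‖X₀ q‖)

/-- The square of the distance to the orbit. -/
noncomputable def vv {r : ℕ} (ξ : Fin r → (Fin n → ℂ) × ℂ → ℂ) (ξ0 : Fin r → ℂ)
    (q : (Fin n → ℂ) × ℂ) : ℝ := ∑ k, ‖ξ k q - ξ0 k‖ ^ 2

/-- A singular plurisubharmonic weight `φ = lim φ_k` (decreasing), `W = e^{-φ}`, homogeneous of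
degree `c`: `φ (t • q) = φ q + c log |t|²`. -/
structure Weight (S : Sheets n N') (N e : ℕ) (φ : ℕ → (Fin n → ℂ) × ℂ → ℝ)
    (W : (Fin n → ℂ) × ℂ → ℝ≥0∞) (c : ℝ) : Prop where
  cd : ∀ k, S.CD 2 (fun q => (φ k q : ℂ))
  levi : ∀ k, ∀ q ∈ S.M, ∀ β : Fin n → ℂ, 0 ≤ S.levi (φ k) β q
  anti : ∀ k, ∀ q ∈ S.M, φ (k + 1) q ≤ φ k q
  bdd : ∀ k, ∃ b : ℝ, ∀ q ∈ S.M, b ≤ φ k q
  loc : LocB S (φ 0)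
  sup : ∀ q ∈ S.M, W q = ⨆ k, ENNReal.ofReal (Real.exp (-φ k q))
  hom : ∀ t : ℂ, t ≠ 0 → ∀ q ∈ S.M, W (act N e t q) = ENNReal.ofReal (‖t‖ ^ (-2 * c)) * W q

/-- The conclusion of the global `L²` theorem: `F` is holomorphic on `M`, homogeneous of degree `l`,
`F - η` is `L²` with respect to `W` near the orbit `{ξ = ξ0}` and `F` is so away from it. -/
structure GlobOut (S : Sheets n N') (N e : ℕ) {r : ℕ} (ξ : Fin r → (Fin n → ℂ) × ℂ → ℂ)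
    (ξ0 : Fin r → ℂ) (η : (Fin n → ℂ) × ℂ → ℂ) (l : ℤ) (W : (Fin n → ℂ) × ℂ → ℝ≥0∞)
    (F : (Fin n → ℂ) × ℂ → ℂ) : Prop where
  holo : S.Holo F
  hom : ∀ t : ℂ, t ≠ 0 → ∀ q ∈ S.M, F (act N e t q) = t ^ l * F q
  near : ∃ r1 > (0 : ℝ), ∀ R : ℝ, ∫⁻ q in {q | ‖q.1‖ ≤ R ∧ vv ξ ξ0 q ≤ r1},
    ENNReal.ofReal (‖F q - η q‖ ^ 2) * W q ∂S.μ < ⊤
  off : ∀ R r1 : ℝ, 0 < r1 → ∫⁻ q in {q | ‖q.1‖ ≤ R ∧ r1 ≤ vv ξ ξ0 q},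
    ENNReal.ofReal (‖F q‖ ^ 2) * W q ∂S.μ < ⊤

/-- The statement of the global `L²` theorem. -/
def GlobStatement : Prop :=
  ∀ (n N' : ℕ) (S : Sheets n N') (N e : ℕ) (p : (Fin n → ℂ) → ℝ) (C : ℝ) (k0 : ℕ),
    Setup S N e p C k0 →
  ∀ (r : ℕ) (ξ : Fin r → (Fin n → ℂ) × ℂ → ℂ) (X₀ : (Fin n → ℂ) × ℂ → ℂ) (K : ℕ),
    Coord S N e p ξ X₀ K →
  ∀ (ξ0 : Fin r → ℂ) (η : (Fin n → ℂ) × ℂ → ℂ) (l : ℤ), S.Holo η → Grow S p η →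
    (∀ t : ℂ, t ≠ 0 → ∀ q ∈ S.M, η (act N e t q) = t ^ l * η q) →
  ∀ (φ : ℕ → (Fin n → ℂ) × ℂ → ℝ) (W : (Fin n → ℂ) × ℂ → ℝ≥0∞) (c : ℝ), Weight S N e φ W c →
    c < l + n * N →
  ∀ r0 : ℝ, 0 < r0 →
    (∃ c0 > (0 : ℝ), ∀ q ∈ S.M, 1 ≤ ‖X₀ q‖ → ‖X₀ q‖ ≤ 2 ^ K → vv ξ ξ0 q ≤ r0 → c0 ≤ ‖q.1‖) →
    (∀ r1 : ℝ, 0 < r1 → ∫⁻ q in {q | 1 ≤ ‖X₀ q‖ ∧ ‖X₀ q‖ ≤ 2 ^ K ∧ r1 ≤ vv ξ ξ0 q ∧
      vv ξ ξ0 q ≤ r0}, ENNReal.ofReal (‖η q‖ ^ 2) * W q ∂S.μ < ⊤) →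
    ∃ F, GlobOut S N e ξ ξ0 η l W F

end Vale.Agent.P271.Glob
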