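import Vale.Agent.P271.GLOB.Est
import Vale.Agent.P271.H884.Sing
import Vale.Agent.P271.H408.SWeyl
import Vale.Agent.P271.H553.Avg

/-!
P271, block GLOB-A: the proof of the global `L²` theorem from the two integral estimates.
-/

open MeasureTheory Filter Topology
open scoped ENNReal NNReal ComplexConjugate

namespace Vale.Agent.P271.Glob

open Vale.Agent.P282.L2 Vale.Agent.P282.L2.Sheets

variable {n N' : ℕ} {S : Sheets n N'} {N e : ℕ} {q : (Fin n → ℂ) × ℂ}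
  {r : ℕ} {φ : ℕ → (Fin n → ℂ) × ℂ → ℝ} {ε M₁ : ℝ} {ξ : Fin r → (Fin n → ℂ) × ℂ → ℂ}
  {X₀ : (Fin n → ℂ) × ℂ → ℂ} {p : (Fin n → ℂ) → ℝ} {C : ℝ} {k0 K : ℕ}
  {ξ0 : Fin r → ℂ} {η : (Fin n → ℂ) × ℂ → ℂ} {r0 c : ℝ} {l : ℤ} {W : (Fin n → ℂ) × ℂ → ℝ≥0∞}

theorem aemeas_real {u : (Fin n → ℂ) × ℂ → ℝ} (hu : S.CD 0 (fun q => (u q : ℂ))) :
    AEMeasurable u S.μ := by
  have h := (aestronglyMeasurable_of_CD hu).aemeasurable
  have h2 := Complex.measurable_re.comp_aemeasurable h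
  simpa [Function.comp_def] using h2

theorem cd0 {u : (Fin n → ℂ) × ℂ → ℂ} {k : ℕ} (hu : S.CD k u) : S.CD 0 u := hu.mono (Nat.zero_le k)

theorem weight_aemeas (hW : Weight S N e φ W c) : AEMeasurable W S.μ := by
  have h1 : AEMeasurable (fun q => ⨆ k, ENNReal.ofReal (Real.exp (-φ k q))) S.μ :=
    AEMeasurable.iSup fun k => (Real.measurable_exp.comp_aemeasurable
      (aemeas_real (cd0 (hW.cd k))).neg).ennreal_ofReal
  refine h1.congr ?_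
  filter_upwards [ae_mem_M (S := S)] with q hq
  exact (hW.sup q hq).symm

theorem vv_aemeas (hξ : ∀ k, S.Holo (ξ k)) : AEMeasurable (vv ξ ξ0) S.μ :=
  aemeas_real (vv_cd hξ 0)

theorem vv_inv (hc : Coord S N e p ξ X₀ K) {t : ℂ} (ht : t ≠ 0) (hq : q ∈ S.M) :
    vv ξ ξ0 (act N e t q) = vv ξ ξ0 q := by
  unfold vv
  refine Finset.sum_congr rfl fun k _ => ?_
  rw [hc.inv k t ht q hq]

/-- The factor by which the total weight differs from `φ`. -/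
noncomputable def rho (ε M₁ : ℝ) (ξ : Fin r → (Fin n → ℂ) × ℂ → ℂ)
    (X₀ : (Fin n → ℂ) × ℂ → ℂ) (q : (Fin n → ℂ) × ℂ) : ℝ :=
  Real.exp (-(ε * (thW ξ q + Real.log (‖X₀ q‖ ^ 2)) + M₁ * zW q))

theorem exp_bigW (k : ℕ) (q : (Fin n → ℂ) × ℂ) :
    Real.exp (-bigW φ ε M₁ ξ X₀ p k q) =
      Real.exp (-φ k q) * rho ε M₁ ξ X₀ q * Real.exp (-(((k : ℝ) + 1)⁻¹ * p q.1)) := by
  rw [rho, ← Real.exp_add, ← Real.exp_add]
  congr 1
  unfold bigW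
  ring

theorem antitone_phi (hφ : ∀ k, ∀ q ∈ S.M, φ (k + 1) q ≤ φ k q) (hq : q ∈ S.M) {j k : ℕ}
    (h : j ≤ k) : φ k q ≤ φ j q :=
  antitone_nat_of_succ_le (f := fun m => φ m q) (fun m => hφ m q hq) h

theorem W_rho_le (hW : Weight S N e φ W c) (hq : q ∈ S.M) :
    W q * ENNReal.ofReal (rho ε M₁ ξ X₀ q) ≤
      ⨆ k, ENNReal.ofReal (Real.exp (-bigW φ ε M₁ ξ X₀ p k q)) := by
  rw [hW.sup q hq, ENNReal.iSup_mul]
  refine iSup_le fun k => ?_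
  rw [← ENNReal.ofReal_mul (Real.exp_pos _).le]
  have hlim : Tendsto (fun j : ℕ => ENNReal.ofReal (Real.exp (-φ k q) * rho ε M₁ ξ X₀ q *
      Real.exp (-(((j : ℝ) + 1)⁻¹ * p q.1)))) atTop
      (𝓝 (ENNReal.ofReal (Real.exp (-φ k q) * rho ε M₁ ξ X₀ q * Real.exp (-(0 * p q.1))))) := by
    refine (ENNReal.continuous_ofReal.tendsto _).comp (Tendsto.const_mul _ ?_)
    refine (Real.continuous_exp.tendsto _).comp (Tendsto.neg (Tendsto.mul_const _ ?_))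
    simpa [one_div] using tendsto_one_div_add_atTop_nhds_zero_nat (𝕜 := ℝ)
  rw [zero_mul, neg_zero, Real.exp_zero, mul_one] at hlim
  refine le_of_tendsto hlim ?_
  filter_upwards [eventually_ge_atTop k] with j hj
  refine le_trans ?_ (le_iSup (fun k => ENNReal.ofReal (Real.exp (-bigW φ ε M₁ ξ X₀ p k q))) j)
  rw [exp_bigW]
  refine ENNReal.ofReal_le_ofReal ?_
  have h1 : Real.exp (-φ k q) ≤ Real.exp (-φ j q) :=
    Real.exp_le_exp.2 (neg_le_neg (antitone_phi hW.anti hq hj))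
  have h2 : 0 ≤ rho ε M₁ ξ X₀ q := (Real.exp_pos _).le
  gcongr

/-- The total `L²` bound of the solution. -/
theorem total_bound (hp : Exh S.V p C k0) (hc : Coord S N e p ξ X₀ K)
    (hW : Weight S N e φ W c) {u : (Fin n → ℂ) × ℂ → ℂ} (hu : AEStronglyMeasurable u S.μ)
    {A : ℝ≥0∞} (h : ∀ m, ∫⁻ q, ENNReal.ofReal (‖u q‖ ^ 2 *
      Real.exp (-bigW φ ε M₁ ξ X₀ p m q)) ∂S.μ ≤ A) :
    ∫⁻ q, ENNReal.ofReal (‖u q‖ ^ 2) * (W q * ENNReal.ofReal (rho ε M₁ ξ X₀ q)) ∂S.μ ≤ A := by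
  have hcd := bigW_cd (ε := ε) (M₁ := M₁) hp hW.cd hc.holo hc.X_holo hc.X_ne
  have hmeas : ∀ k, AEMeasurable (fun q => ENNReal.ofReal (‖u q‖ ^ 2 *
      Real.exp (-bigW φ ε M₁ ξ X₀ p k q))) S.μ := fun k =>
    ((hu.norm.aemeasurable.pow_const 2).mul (Real.measurable_exp.comp_aemeasurable
      (aemeas_real (cd0 (hcd k))).neg)).ennreal_ofReal
  calc ∫⁻ q, ENNReal.ofReal (‖u q‖ ^ 2) * (W q * ENNReal.ofReal (rho ε M₁ ξ X₀ q)) ∂S.μ
      ≤ ∫⁻ q, ⨆ k, ENNReal.ofReal (‖u q‖ ^ 2 * Real.exp (-bigW φ ε M₁ ξ X₀ p k q)) ∂S.μ := by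
        refine lintegral_mono_ae ?_
        filter_upwards [ae_mem_M (S := S)] with q hq
        refine (mul_le_mul_right (W_rho_le (p := p) hW hq) _).trans (le_of_eq ?_)
        rw [ENNReal.mul_iSup]
        congr 1
        funext k
        rw [ENNReal.ofReal_mul (by positivity)]
    _ = ⨆ k, ∫⁻ q, ENNReal.ofReal (‖u q‖ ^ 2 * Real.exp (-bigW φ ε M₁ ξ X₀ p k q)) ∂S.μ := by
        refine lintegral_iSup' hmeas ?_
        filter_upwards [ae_mem_M (S := S)] with q hq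
        refine monotone_nat_of_le_succ fun k => ENNReal.ofReal_le_ofReal ?_
        refine mul_le_mul_of_nonneg_left (Real.exp_le_exp.2 (neg_le_neg ?_)) (by positivity)
        exact bigW_anti hp hW.anti k hq
    _ ≤ A := iSup_le h

/-- `rho` is bounded below over bounded sets. -/
theorem rho_lower (hc : Coord S N e p ξ X₀ K) (hε : 0 ≤ ε) (hM : 0 ≤ M₁) (R : ℝ) :
    ∃ b : ℝ, 0 < b ∧ ∀ q ∈ S.M, ‖q.1‖ ≤ R → b ≤ rho ε M₁ ξ X₀ q := by
  obtain ⟨b0, hb0⟩ := hc.X_loc R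
  choose b1 hb1 using fun k => hc.loc k R
  set B : ℝ := 1 + b0 ^ 2 + ∑ k, b1 k ^ 2 with hB
  set Z : ℝ := 1 + ∑ _j : Fin n, R ^ 2 with hZ
  have hBpos : 0 < B := by
    have : 0 ≤ ∑ k, b1 k ^ 2 := Finset.sum_nonneg fun _ _ => sq_nonneg _
    have := sq_nonneg b0
    linarith
  refine ⟨Real.exp (-(ε * Real.log B + M₁ * Real.log Z)), Real.exp_pos _, fun q hq hqR => ?_⟩
  unfold rho
  refine Real.exp_le_exp.2 (neg_le_neg (add_le_add ?_ ?_))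
  · refine mul_le_mul_of_nonneg_left ?_ hε
    have hX : 0 < ‖X₀ q‖ := norm_pos_iff.2 (hc.X_ne q hq)
    have hs : 0 ≤ ∑ k, ‖ξ k q‖ ^ 2 := Finset.sum_nonneg fun _ _ => by positivity
    rw [thW, ← Real.log_mul (by positivity) (by positivity)]
    refine Real.log_le_log (by positivity) ?_
    have h1 : ‖X₀ q‖ ^ 2 ≤ b0 ^ 2 := pow_le_pow_left₀ (norm_nonneg _) (hb0 q hq hqR) 2
    have h2 : ∑ k, ‖ξ k q‖ ^ 2 * ‖X₀ q‖ ^ 2 ≤ ∑ k, b1 k ^ 2 := by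
      refine Finset.sum_le_sum fun k _ => ?_
      have h3 := hb1 k q hq hqR
      beta_reduce at h3
      rw [norm_mul] at h3
      calc ‖ξ k q‖ ^ 2 * ‖X₀ q‖ ^ 2 = (‖X₀ q‖ * ‖ξ k q‖) ^ 2 := by ring
        _ ≤ b1 k ^ 2 := pow_le_pow_left₀ (by positivity) h3 2
    rw [add_mul, one_mul, Finset.sum_mul]
    linarith
  · refine mul_le_mul_of_nonneg_left ?_ hM
    unfold zW
    refine Real.log_le_log ?_ ?_
    · have : 0 ≤ ∑ j, ‖q.1 j‖ ^ 2 := Finset.sum_nonneg fun _ _ => by positivity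
      linarith
    · rw [hZ]
      refine add_le_add_right (Finset.sum_le_sum fun j _ => ?_) 1
      exact pow_le_pow_left₀ (norm_nonneg _) ((norm_le_pi_norm q.1 j).trans hqR) 2

/-- Local square integrability of the solution. -/
theorem loc_sq (hp : Exh S.V p C k0) (hc : Coord S N e p ξ X₀ K)
    (hφ : ∀ k, S.CD 2 (fun q => (φ k q : ℂ))) {u : (Fin n → ℂ) × ℂ → ℂ} {A : ℝ≥0∞} (hA : A < ⊤)
    (h : ∫⁻ q, ENNReal.ofReal (‖u q‖ ^ 2 * Real.exp (-bigW φ ε M₁ ξ X₀ p 0 q)) ∂S.μ ≤ A)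
    {T : Set (Fin n → ℂ)} (hT : IsCompact T) (hTV : T ⊆ S.V) :
    ∫⁻ q in {q : (Fin n → ℂ) × ℂ | q.1 ∈ T}, ‖u q‖ₑ ^ 2 ∂S.μ < ⊤ := by
  have hcd := bigW_cd (ε := ε) (M₁ := M₁) hp hφ hc.holo hc.X_holo hc.X_ne 0
  obtain ⟨B, hB⟩ := exists_bound (cd0 hcd) hT hTV
  have hmT : MeasurableSet {q : (Fin n → ℂ) × ℂ | q.1 ∈ T} :=
    hT.isClosed.measurableSet.preimage measurable_fst
  have hle : ∫⁻ q in {q : (Fin n → ℂ) × ℂ | q.1 ∈ T}, ‖u q‖ₑ ^ 2 ∂S.μ ≤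
      ENNReal.ofReal (Real.exp B) *
        ∫⁻ q, ENNReal.ofReal (‖u q‖ ^ 2 * Real.exp (-bigW φ ε M₁ ξ X₀ p 0 q)) ∂S.μ := by
    rw [← lintegral_const_mul' _ _ ENNReal.ofReal_ne_top]
    refine le_trans ?_ (setLIntegral_le_lintegral {q : (Fin n → ℂ) × ℂ | q.1 ∈ T} _)
    refine lintegral_mono_ae ?_
    rw [ae_restrict_iff' hmT]
    filter_upwards [ae_mem_M (S := S)] with q hq hqT
    rw [← ENNReal.ofReal_mul (Real.exp_pos _).le, ← ofReal_norm,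
      ← ENNReal.ofReal_pow (norm_nonneg _)]
    refine ENNReal.ofReal_le_ofReal ?_
    have h1 := hB q hq hqT
    rw [Complex.norm_real, Real.norm_eq_abs] at h1
    have h2 : 1 ≤ Real.exp B * Real.exp (-bigW φ ε M₁ ξ X₀ p 0 q) := by
      rw [← Real.exp_add]
      refine Real.one_le_exp ?_
      have := le_abs_self (bigW φ ε M₁ ξ X₀ p 0 q)
      linarith
    calc ‖u q‖ ^ 2 = 1 * ‖u q‖ ^ 2 := (one_mul _).symm
      _ ≤ (Real.exp B * Real.exp (-bigW φ ε M₁ ξ X₀ p 0 q)) * ‖u q‖ ^ 2 :=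
        mul_le_mul_of_nonneg_right h2 (by positivity)
      _ = _ := by ring
  exact hle.trans_lt (ENNReal.mul_lt_top ENNReal.ofReal_lt_top (h.trans_lt hA))

end Vale.Agent.P271.Glob
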