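import Vale.Agent.P271.GLOB.Act

/-!
P271, block GLOB-A: the weights, the cut-off function and the pointwise estimate of the data.
-/

open MeasureTheory Filter Topology
open scoped ENNReal NNReal ComplexConjugate

namespace Vale.Agent.P271.Glob

open Vale.Agent.P282.L2 Vale.Agent.P282.L2.Sheets

variable {n N' : ℕ} {S : Sheets n N'} {N e : ℕ} {q : (Fin n → ℂ) × ℂ}

/-! ### Levi forms -/

theorem cd_normSq {X : (Fin n → ℂ) × ℂ → ℂ} (hX : S.Holo X) (k : ℕ) :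
    S.CD k (fun q => ((‖X q‖ ^ 2 : ℝ) : ℂ)) := by
  refine (CD.normSq_sum (F := fun _ : Fin 1 => X) (fun _ => hX) k 0).congr fun q _ => ?_
  simp

theorem cd_log_norm {X : (Fin n → ℂ) × ℂ → ℂ} (hX : S.Holo X) (h0 : ∀ q ∈ S.M, X q ≠ 0) (k : ℕ) :
    S.CD k (fun q => ((Real.log (‖X q‖ ^ 2) : ℝ) : ℂ)) :=
  CD.log (cd_normSq hX k) fun q hq => by
    have := norm_pos_iff.2 (h0 q hq)
    positivity

theorem Db_normSq {X : (Fin n → ℂ) × ℂ → ℂ} (hX : S.Holo X) (hq : q ∈ S.M) (k : Fin n) :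
    S.Db k (fun q => ((‖X q‖ ^ 2 : ℝ) : ℂ)) q = X q * conj (S.D k X q) := by
  have h1 := Db_normSq_sum (F := fun _ : Fin 1 => X) (fun _ => hX) 0 hq k
  rw [Db_congr (X := fun q => ((0 + ∑ _j : Fin 1, ‖X q‖ ^ 2 : ℝ) : ℂ)) (fun q _ => by simp) hq, h1]
  simp

/-- `log |X|²` is pluriharmonic. -/
theorem levi_log_norm {X : (Fin n → ℂ) × ℂ → ℂ} (hX : S.Holo X) (h0 : ∀ q ∈ S.M, X q ≠ 0)
    (hq : q ∈ S.M) (β : Fin n → ℂ) : S.levi (fun q => Real.log (‖X q‖ ^ 2)) β q = 0 := by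
  have hG : ∀ k, S.Holo fun q => S.D k X q * (X q)⁻¹ := fun k => hX.D.mul (hX.inv h0)
  have key : ∀ k, ∀ q ∈ S.M, S.Db k (fun q => ((Real.log (‖X q‖ ^ 2) : ℝ) : ℂ)) q =
      conj (S.D k X q * (X q)⁻¹) := by
    intro k q hq
    have hpos : 0 < ‖X q‖ := norm_pos_iff.2 (h0 q hq)
    rw [Db_comp_real (φ := Real.log) (u := fun q => ‖X q‖ ^ 2) (cd_normSq hX 1) hq
      (Real.differentiableAt_log (by positivity)), Real.deriv_log, Db_normSq hX hq, map_mul, map_inv₀]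
    have h1 : ((‖X q‖ ^ 2 : ℝ) : ℂ) = X q * conj (X q) := by
      rw [Complex.mul_conj']
      push_cast
      rfl
    have h2 : conj (X q) ≠ 0 := by
      rw [Ne, map_eq_zero]
      exact h0 q hq
    rw [Complex.ofReal_inv, h1]
    field_simp [h0 q hq]
  unfold levi
  have h3 : ∀ j k, S.D j (S.Db k (fun q => ((Real.log (‖X q‖ ^ 2) : ℝ) : ℂ))) q = 0 := by
    intro j k
    rw [D_congr (key k) hq, D_conj, (hG k).Db hq, map_zero]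
  simp only [h3, zero_mul, Finset.sum_const_zero, Complex.zero_re]

theorem levi_smul {Φ : (Fin n → ℂ) × ℂ → ℝ} (hΦ : S.CD 2 (fun q => (Φ q : ℂ))) (a : ℝ)
    (hq : q ∈ S.M) (β : Fin n → ℂ) : S.levi (fun q => a * Φ q) β q = a * S.levi Φ β q := by
  have h := levi_lin hΦ hΦ a 0 hq β
  simpa using h

theorem levi_fst {p : (Fin n → ℂ) → ℝ} (β : Fin n → ℂ) (q : (Fin n → ℂ) × ℂ) :
    S.levi (fun q => p q.1) β q =
      (∑ j, ∑ k, dz j (dzb k (fun z => (p z : ℂ))) q.1 * β j * conj (β k)).re := rfl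

theorem cd_smul {Φ : (Fin n → ℂ) × ℂ → ℝ} {k : ℕ} (hΦ : S.CD k (fun q => (Φ q : ℂ))) (a : ℝ) :
    S.CD k (fun q => ((a * Φ q : ℝ) : ℂ)) := by
  refine (CD.mul (CD.const (a : ℂ)) hΦ).congr fun q _ => ?_
  push_cast
  ring

theorem cd_add {Φ Ψ : (Fin n → ℂ) × ℂ → ℝ} {k : ℕ} (hΦ : S.CD k (fun q => (Φ q : ℂ)))
    (hΨ : S.CD k (fun q => (Ψ q : ℂ))) : S.CD k (fun q => ((Φ q + Ψ q : ℝ) : ℂ)) := by
  refine (CD.add hΦ hΨ).congr fun q _ => ?_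
  push_cast
  ring

/-! ### The weights -/

/-- `log (1 + |ξ|²)` -/
noncomputable def thW {r : ℕ} (ξ : Fin r → (Fin n → ℂ) × ℂ → ℂ) (q : (Fin n → ℂ) × ℂ) : ℝ :=
  Real.log (1 + ∑ k, ‖ξ k q‖ ^ 2)

/-- `log (1 + |z|²)` -/
noncomputable def zW (q : (Fin n → ℂ) × ℂ) : ℝ := Real.log (1 + ∑ j, ‖q.1 j‖ ^ 2)

/-- The total weight. -/
noncomputable def bigW {r : ℕ} (φ : ℕ → (Fin n → ℂ) × ℂ → ℝ) (ε M₁ : ℝ)
    (ξ : Fin r → (Fin n → ℂ) × ℂ → ℂ) (X₀ : (Fin n → ℂ) × ℂ → ℂ) (p : (Fin n → ℂ) → ℝ) (k : ℕ)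
    (q : (Fin n → ℂ) × ℂ) : ℝ :=
  φ k q + (ε * (thW ξ q + Real.log (‖X₀ q‖ ^ 2)) + (M₁ * zW q + ((k : ℝ) + 1)⁻¹ * p q.1))

theorem thW_nonneg {r : ℕ} (ξ : Fin r → (Fin n → ℂ) × ℂ → ℂ) (q : (Fin n → ℂ) × ℂ) :
    0 ≤ thW ξ q := Real.log_nonneg (by
  have : 0 ≤ ∑ k, ‖ξ k q‖ ^ 2 := Finset.sum_nonneg fun _ _ => by positivity
  linarith)

theorem zW_nonneg (q : (Fin n → ℂ) × ℂ) : 0 ≤ zW q := Real.log_nonneg (by
  have : 0 ≤ ∑ k, ‖q.1 k‖ ^ 2 := Finset.sum_nonneg fun _ _ => by positivity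
  linarith)

theorem holo_coord (j : Fin n) : S.Holo fun q => q.1 j :=
  Holo.fst (f := fun z => z j) (by fun_prop)

theorem exh_cd {p : (Fin n → ℂ) → ℝ} {C : ℝ} {k0 : ℕ} (hp : Exh S.V p C k0) :
    S.CD 2 (fun q => ((p q.1 : ℝ) : ℂ)) := by
  refine CD.fst (f := fun z => ((p z : ℝ) : ℂ)) ?_
  exact Complex.ofRealCLM.contDiff.comp_contDiffOn (hp.smooth.of_le (by norm_num))

theorem exh_nonneg {p : (Fin n → ℂ) → ℝ} {C : ℝ} {k0 : ℕ} (hp : Exh S.V p C k0)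
    {z : Fin n → ℂ} (hz : z ∈ S.V) : 0 ≤ p z :=
  (sq_nonneg _).trans (hp.norm_sq_le z hz)

section weights

variable {r : ℕ} {φ : ℕ → (Fin n → ℂ) × ℂ → ℝ} {ε M₁ : ℝ} {ξ : Fin r → (Fin n → ℂ) × ℂ → ℂ}
  {X₀ : (Fin n → ℂ) × ℂ → ℂ} {p : (Fin n → ℂ) → ℝ} {C : ℝ} {k0 K : ℕ}

theorem thW_cd (hξ : ∀ k, S.Holo (ξ k)) (k : ℕ) : S.CD k (fun q => ((thW ξ q : ℝ) : ℂ)) :=
  CD.log_normSq_sum hξ k one_pos

theorem zW_cd (k : ℕ) : S.CD k (fun q => ((zW q : ℝ) : ℂ)) :=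
  CD.log_normSq_sum (F := fun j q => q.1 j) (fun j => holo_coord j) k one_pos

theorem bigW_cd (hp : Exh S.V p C k0) (hφ : ∀ k, S.CD 2 (fun q => (φ k q : ℂ)))
    (hξ : ∀ k, S.Holo (ξ k)) (hX : S.Holo X₀) (h0 : ∀ q ∈ S.M, X₀ q ≠ 0) (k : ℕ) :
    S.CD 2 (fun q => ((bigW φ ε M₁ ξ X₀ p k q : ℝ) : ℂ)) :=
  cd_add (hφ k) (cd_add (cd_smul (cd_add (thW_cd hξ 2) (cd_log_norm hX h0 2)) ε)
    (cd_add (cd_smul (zW_cd 2) M₁) (cd_smul (exh_cd hp) _)))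

/-- Lower bound for the Levi form of the total weight. -/
theorem bigW_levi (hp : Exh S.V p C k0) (hφ : ∀ k, S.CD 2 (fun q => (φ k q : ℂ)))
    (hφl : ∀ k, ∀ q ∈ S.M, ∀ β : Fin n → ℂ, 0 ≤ S.levi (φ k) β q)
    (hξ : ∀ k, S.Holo (ξ k)) (hX : S.Holo X₀) (h0 : ∀ q ∈ S.M, X₀ q ≠ 0) (hε : 0 ≤ ε)
    (hM : 0 ≤ M₁) (k : ℕ) (hq : q ∈ S.M) (β : Fin n → ℂ) :
    ε * ((∑ l, ‖∑ j, S.D j (ξ l) q * β j‖ ^ 2) / (1 + ∑ l, ‖ξ l q‖ ^ 2) ^ 2) ≤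
      S.levi (bigW φ ε M₁ ξ X₀ p k) β q := by
  have c1 := thW_cd hξ 2
  have c2 := cd_log_norm hX h0 2
  have c3 := zW_cd (S := S) 2
  have c4 := exh_cd hp
  have e1 : S.levi (bigW φ ε M₁ ξ X₀ p k) β q = S.levi (φ k) β q +
      (ε * (S.levi (thW ξ) β q + 0) +
        (M₁ * S.levi zW β q + ((k : ℝ) + 1)⁻¹ * S.levi (fun q => p q.1) β q)) := by
    unfold bigW
    rw [levi_add (hφ k) (cd_add (cd_smul (cd_add c1 c2) ε) (cd_add (cd_smul c3 M₁)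
        (cd_smul c4 _))) hq,
      levi_add (cd_smul (cd_add c1 c2) ε) (cd_add (cd_smul c3 M₁) (cd_smul c4 _)) hq,
      levi_smul (cd_add c1 c2) ε hq, levi_add c1 c2 hq, levi_log_norm hX h0 hq,
      levi_add (cd_smul c3 M₁) (cd_smul c4 _) hq, levi_smul c3 M₁ hq, levi_smul c4 _ hq]
  have h1 := levi_log_ge hξ one_pos hq β
  rw [one_mul] at h1
  have h2 : 0 ≤ S.levi zW β q := by
    refine le_trans ?_ (levi_log_ge (S := S) (F := fun (j : Fin n) q => q.1 j)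
      (fun j => holo_coord j) one_pos hq β)
    positivity
  have h3 : 0 ≤ S.levi (fun q => p q.1) β q := by
    rw [levi_fst]
    exact le_trans (Finset.sum_nonneg fun _ _ => by positivity) (hp.levi q.1 hq.1 β)
  have h4 := hφl k q hq β
  rw [e1, add_zero]
  have h5 : ε * ((∑ l, ‖∑ j, S.D j (ξ l) q * β j‖ ^ 2) / (1 + ∑ l, ‖ξ l q‖ ^ 2) ^ 2) ≤
      ε * S.levi (thW ξ) β q := mul_le_mul_of_nonneg_left h1 hε
  have h6 : 0 ≤ M₁ * S.levi zW β q := mul_nonneg hM h2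
  have h7 : 0 ≤ ((k : ℝ) + 1)⁻¹ * S.levi (fun q => p q.1) β q := mul_nonneg (by positivity) h3
  linarith

theorem bigW_anti (hp : Exh S.V p C k0) (hφ : ∀ k, ∀ q ∈ S.M, φ (k + 1) q ≤ φ k q) (k : ℕ)
    (hq : q ∈ S.M) : bigW φ ε M₁ ξ X₀ p (k + 1) q ≤ bigW φ ε M₁ ξ X₀ p k q := by
  unfold bigW
  have h1 := hφ k q hq
  have h2 := exh_nonneg hp hq.1
  have h3 : (((k + 1 : ℕ) : ℝ) + 1)⁻¹ * p q.1 ≤ ((k : ℝ) + 1)⁻¹ * p q.1 := by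
    refine mul_le_mul_of_nonneg_right ?_ h2
    push_cast
    gcongr
    linarith
  linarith

end weights

/-! ### The cut-off function -/

/-- `1` for `x ≤ 1/2`, `0` for `x ≥ 1`. -/
noncomputable def cut (x : ℝ) : ℝ := Real.smoothTransition (2 - 2 * x)

theorem cut_one {x : ℝ} (hx : x ≤ 1 / 2) : cut x = 1 :=
  Real.smoothTransition.one_of_one_le (by linarith)

theorem cut_zero {x : ℝ} (hx : 1 ≤ x) : cut x = 0 :=
  Real.smoothTransition.zero_of_nonpos (by linarith)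

theorem cut_nonneg (x : ℝ) : 0 ≤ cut x := Real.smoothTransition.nonneg _

theorem cut_le_one (x : ℝ) : cut x ≤ 1 := Real.smoothTransition.le_one _

theorem cut_contDiff (m : ℕ) : ContDiff ℝ m cut := by
  unfold cut
  exact (Real.smoothTransition.contDiff (n := m)).comp (by fun_prop)

theorem cut_diff : Differentiable ℝ cut := (cut_contDiff 1).differentiable (by norm_num)

theorem deriv_cut_zero {x : ℝ} (hx : x < 1 / 2 ∨ 1 < x) : deriv cut x = 0 := by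
  rcases hx with h | h
  · have : cut =ᶠ[𝓝 x] fun _ => 1 := by
      filter_upwards [Iio_mem_nhds h] with y hy using cut_one (le_of_lt hy)
    rw [this.deriv_eq, deriv_const]
  · have : cut =ᶠ[𝓝 x] fun _ => 0 := by
      filter_upwards [Ioi_mem_nhds h] with y hy using cut_zero (le_of_lt hy)
    rw [this.deriv_eq, deriv_const]

theorem exists_deriv_cut : ∃ B : ℝ, 0 ≤ B ∧ ∀ x, |deriv cut x| ≤ B := by
  have hc : Continuous (deriv cut) := (cut_contDiff 1).continuous_deriv (by norm_num)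
  obtain ⟨B, hB⟩ := (isCompact_Icc (a := (1 / 2 : ℝ)) (b := 1)).exists_bound_of_continuousOn
    hc.continuousOn
  refine ⟨max B 0, le_max_right _ _, fun x => ?_⟩
  by_cases hx : x ∈ Set.Icc (1 / 2 : ℝ) 1
  · exact (hB x hx).trans (le_max_left _ _)
  · rw [deriv_cut_zero, abs_zero]
    · exact le_max_right _ _
    · by_contra hcon
      push Not at hcon
      exact hx ⟨hcon.1, hcon.2⟩

section data

variable {r : ℕ} {ξ : Fin r → (Fin n → ℂ) × ℂ → ℂ} {ξ0 : Fin r → ℂ} {η : (Fin n → ℂ) × ℂ → ℂ}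
  {r0 : ℝ}

theorem vv_nonneg (ξ : Fin r → (Fin n → ℂ) × ℂ → ℂ) (ξ0 : Fin r → ℂ) (q : (Fin n → ℂ) × ℂ) :
    0 ≤ vv ξ ξ0 q := Finset.sum_nonneg fun _ _ => by positivity

theorem holo_sub_const {X : (Fin n → ℂ) × ℂ → ℂ} (hX : S.Holo X) (c : ℂ) :
    S.Holo fun q => X q - c := by
  have := hX.add (Holo.const (-c))
  simpa [sub_eq_add_neg] using this

theorem vv_cd (hξ : ∀ k, S.Holo (ξ k)) (k : ℕ) : S.CD k (fun q => ((vv ξ ξ0 q : ℝ) : ℂ)) := by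
  refine (CD.normSq_sum (F := fun l q => ξ l q - ξ0 l) (fun l => holo_sub_const (hξ l) _) k
    0).congr fun q _ => ?_
  simp [vv]

theorem D_sub_const {X : (Fin n → ℂ) × ℂ → ℂ} (hX : S.Holo X) (c : ℂ) (hq : q ∈ S.M)
    (j : Fin n) : S.D j (fun q => X q - c) q = S.D j X q := by
  have h1 := D_add (j := j) (hX.CD 1) (CD.const (-c)) hq
  rw [levi_aux_D_const _ hq, add_zero] at h1
  simpa [sub_eq_add_neg] using h1

theorem Db_vv (hξ : ∀ k, S.Holo (ξ k)) (hq : q ∈ S.M) (j : Fin n) :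
    S.Db j (fun q => ((vv ξ ξ0 q : ℝ) : ℂ)) q = ∑ l, (ξ l q - ξ0 l) * conj (S.D j (ξ l) q) := by
  have h1 := Db_normSq_sum (F := fun l q => ξ l q - ξ0 l) (fun l => holo_sub_const (hξ l) _) 0 hq j
  rw [Db_congr (X := fun q => ((0 + ∑ l, ‖ξ l q - ξ0 l‖ ^ 2 : ℝ) : ℂ))
    (fun q _ => by simp [vv]) hq, h1]
  refine Finset.sum_congr rfl fun l _ => ?_
  rw [D_sub_const (hξ l) _ hq]

/-- The cut-off function on `M`. -/
noncomputable def chi (ξ : Fin r → (Fin n → ℂ) × ℂ → ℂ) (ξ0 : Fin r → ℂ) (r0 : ℝ)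
    (q : (Fin n → ℂ) × ℂ) : ℝ := cut (r0⁻¹ * vv ξ ξ0 q)

theorem chi_cd (hξ : ∀ k, S.Holo (ξ k)) (k : ℕ) : S.CD k (fun q => ((chi ξ ξ0 r0 q : ℝ) : ℂ)) := by
  unfold chi
  exact CD.comp_real (φ := fun x => cut (r0⁻¹ * x))
    ((cut_contDiff k).comp (contDiff_const.mul contDiff_id)) (vv_cd hξ k)

theorem chi_one (hr : 0 < r0) (h : vv ξ ξ0 q ≤ r0 / 2) : chi ξ ξ0 r0 q = 1 := by
  refine cut_one ?_
  rw [inv_mul_le_iff₀ hr]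
  linarith

theorem chi_zero (hr : 0 < r0) (h : r0 ≤ vv ξ ξ0 q) : chi ξ ξ0 r0 q = 0 := by
  refine cut_zero ?_
  rw [le_inv_mul_iff₀ hr]
  linarith

theorem Db_chi (hξ : ∀ k, S.Holo (ξ k)) (hq : q ∈ S.M) (j : Fin n) :
    S.Db j (fun q => ((chi ξ ξ0 r0 q : ℝ) : ℂ)) q =
      ((deriv cut (r0⁻¹ * vv ξ ξ0 q) * r0⁻¹ : ℝ) : ℂ) *
        ∑ l, (ξ l q - ξ0 l) * conj (S.D j (ξ l) q) := by
  have hd : HasDerivAt (fun x => cut (r0⁻¹ * x)) (deriv cut (r0⁻¹ * vv ξ ξ0 q) * r0⁻¹)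
      (vv ξ ξ0 q) := by
    have h1 := (cut_diff (r0⁻¹ * vv ξ ξ0 q)).hasDerivAt
    have h2 : HasDerivAt (fun x : ℝ => r0⁻¹ * x) r0⁻¹ (vv ξ ξ0 q) := by
      simpa using (hasDerivAt_id (vv ξ ξ0 q)).const_mul r0⁻¹
    exact h1.comp (vv ξ ξ0 q) h2
  have h := Db_comp_real (j := j) (φ := fun x => cut (r0⁻¹ * x)) (vv_cd hξ 1) hq
    hd.differentiableAt
  rw [hd.deriv, Db_vv hξ hq] at h
  exact h

/-- The data. -/
noncomputable def alp (S : Sheets n N') (ξ : Fin r → (Fin n → ℂ) × ℂ → ℂ) (ξ0 : Fin r → ℂ)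
    (r0 : ℝ) (η : (Fin n → ℂ) × ℂ → ℂ) (j : Fin n) : (Fin n → ℂ) × ℂ → ℂ :=
  S.Db j fun q => ((chi ξ ξ0 r0 q : ℝ) : ℂ) * η q

theorem chi_mul_cd (hξ : ∀ k, S.Holo (ξ k)) (hη : S.Holo η) (k : ℕ) :
    S.CD k fun q => ((chi ξ ξ0 r0 q : ℝ) : ℂ) * η q := (chi_cd hξ k).mul (hη.CD k)

theorem alp_cd (hξ : ∀ k, S.Holo (ξ k)) (hη : S.Holo η) (j : Fin n) :
    S.CD 1 (alp S ξ ξ0 r0 η j) := CD.Db (m := 1) (chi_mul_cd hξ hη 2)

theorem alp_closed (hξ : ∀ k, S.Holo (ξ k)) (hη : S.Holo η) (hq : q ∈ S.M) (j k : Fin n) :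
    S.Db j (alp S ξ ξ0 r0 η k) q = S.Db k (alp S ξ ξ0 r0 η j) q :=
  Db_Db_comm (chi_mul_cd hξ hη 2) hq

theorem alp_eq (hξ : ∀ k, S.Holo (ξ k)) (hη : S.Holo η) (hq : q ∈ S.M) (j : Fin n) :
    alp S ξ ξ0 r0 η j q = ((deriv cut (r0⁻¹ * vv ξ ξ0 q) * r0⁻¹ : ℝ) : ℂ) * η q *
        ∑ l, (ξ l q - ξ0 l) * conj (S.D j (ξ l) q) := by
  rw [alp, Db_mul (chi_cd hξ 1) (hη.CD 1) hq, hη.Db hq, mul_zero, add_zero, Db_chi hξ hq]
  ring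

/-- The pointwise bound of the data. -/
noncomputable def aa (ξ : Fin r → (Fin n → ℂ) × ℂ → ℂ) (ξ0 : Fin r → ℂ) (r0 A : ℝ)
    (η : (Fin n → ℂ) × ℂ → ℂ) (q : (Fin n → ℂ) × ℂ) : ℝ :=
  {q | r0 / 2 ≤ vv ξ ξ0 q ∧ vv ξ ξ0 q ≤ r0}.indicator (fun q => A * ‖η q‖ ^ 2) q

theorem aa_nonneg {A : ℝ} (hA : 0 ≤ A) (q : (Fin n → ℂ) × ℂ) : 0 ≤ aa ξ ξ0 r0 A η q :=
  Set.indicator_nonneg (fun _ _ => by positivity) _

end data

end Vale.Agent.P271.Glob
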