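import Vale.Agent.P271.GLOB.Est

/-!
P271, block GLOB-A: the dyadic summation of the integrals over the tube around the orbit.
-/

open MeasureTheory Filter Topology
open scoped ENNReal NNReal ComplexConjugate

namespace Vale.Agent.P271.Glob

open Vale.Agent.P282.L2 Vale.Agent.P282.L2.Sheets

variable {n N' : ℕ} {S : Sheets n N'} {N e : ℕ} {q : (Fin n → ℂ) × ℂ}
  {r : ℕ} {φ : ℕ → (Fin n → ℂ) × ℂ → ℝ} {ε M₁ : ℝ} {ξ : Fin r → (Fin n → ℂ) × ℂ → ℂ}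
  {X₀ : (Fin n → ℂ) × ℂ → ℂ} {p : (Fin n → ℂ) → ℝ} {C : ℝ} {k0 K : ℕ}
  {ξ0 : Fin r → ℂ} {η : (Fin n → ℂ) × ℂ → ℂ} {r0 : ℝ}

/-! ### Measurability -/

theorem aemeasurable_of_cd {u : (Fin n → ℂ) × ℂ → ℝ} {k : ℕ} (h : S.CD k (fun q => (u q : ℂ))) :
    AEMeasurable u S.μ := by
  have h1 := (aestronglyMeasurable_of_CD (h.mono (Nat.zero_le k))).aemeasurable
  have h2 := Complex.measurable_re.comp_aemeasurable h1
  refine h2.congr (Eventually.of_forall fun q => ?_)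
  simp

theorem Weight.aemeasurable {W : (Fin n → ℂ) × ℂ → ℝ≥0∞} {c : ℝ} (hW : Weight S N e φ W c) :
    AEMeasurable W S.μ := by
  have h1 : ∀ k, AEMeasurable (fun q => ENNReal.ofReal (Real.exp (-φ k q))) S.μ := fun k =>
    (Real.measurable_exp.comp_aemeasurable (aemeasurable_of_cd (hW.cd k)).neg).ennreal_ofReal
  refine (AEMeasurable.iSup h1).congr ?_
  filter_upwards [ae_mem_M] with q hq using (hW.sup q hq).symm

theorem Weight.exp_le {W : (Fin n → ℂ) × ℂ → ℝ≥0∞} {c : ℝ} (hW : Weight S N e φ W c) (k : ℕ)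
    (hq : q ∈ S.M) : ENNReal.ofReal (Real.exp (-φ k q)) ≤ W q := by
  rw [hW.sup q hq]
  exact le_iSup (fun k => ENNReal.ofReal (Real.exp (-φ k q))) k

/-! ### The dyadic sum -/

/-- The summation over the dyadic annuli. -/
theorem lintegral_le_tsum_dyad (hi : Inv S N e) (hXa : AEMeasurable (fun q => ‖X₀ q‖) S.μ)
    (hX0 : ∀ q ∈ S.M, X₀ q ≠ 0) (hK : 0 < K)
    (hXh : ∀ t : ℂ, t ≠ 0 → ∀ q ∈ S.M, X₀ (act N e t q) = t ^ K * X₀ q)
    {Ψ Θ : (Fin n → ℂ) × ℂ → ℝ≥0∞} (hΨ : AEMeasurable Ψ S.μ) {c : ℤ → ℝ≥0∞}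
    (hc : ∀ j : ℤ, ∀ q ∈ S.M, 1 ≤ ‖X₀ q‖ → ‖X₀ q‖ ≤ 2 ^ K →
      ENNReal.ofReal (((2 : ℝ) ^ j) ^ (2 * n * N)) * Ψ (act N e (((2 : ℝ) ^ j : ℝ) : ℂ) q) ≤
        c j * Θ q) (hcfin : ∀ j, c j ≠ ⊤) :
    ∫⁻ q, Ψ q ∂S.μ ≤ (∑' j, c j) * ∫⁻ q in {q | 1 ≤ ‖X₀ q‖ ∧ ‖X₀ q‖ ≤ 2 ^ K}, Θ q ∂S.μ := by
  classical
  set A : ℤ → Set ((Fin n → ℂ) × ℂ) := fun j =>
    {q | ((2 : ℝ) ^ j) ^ K ≤ ‖X₀ q‖ ∧ ‖X₀ q‖ ≤ ((2 : ℝ) ^ j) ^ K * 2 ^ K} with hA
  have hAm : ∀ j, NullMeasurableSet (A j) S.μ := fun j =>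
    (nullMeasurableSet_le aemeasurable_const hXa).inter
      (nullMeasurableSet_le hXa aemeasurable_const)
  have hA0 : NullMeasurableSet {q | 1 ≤ ‖X₀ q‖ ∧ ‖X₀ q‖ ≤ 2 ^ K} S.μ :=
    (nullMeasurableSet_le aemeasurable_const hXa).inter
      (nullMeasurableSet_le hXa aemeasurable_const)
  have hcov : ∀ q ∈ S.M, ∃ j, q ∈ A j := by
    intro q hq
    have hx : 0 < ‖X₀ q‖ := norm_pos_iff.2 (hX0 q hq)
    obtain ⟨j, hj⟩ := exists_mem_Ico_zpow hx (one_lt_pow₀ (one_lt_two (α := ℝ)) hK.ne')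
    refine ⟨j, ?_, ?_⟩
    · have h1 := hj.1
      rwa [← zpow_natCast, ← zpow_mul, mul_comm, zpow_mul, zpow_natCast] at h1
    · have h1 := hj.2.le
      rw [zpow_add₀ (by positivity), zpow_one] at h1
      have h2 : ((2 : ℝ) ^ K) ^ j = ((2 : ℝ) ^ j) ^ K := by
        rw [← zpow_natCast, ← zpow_mul, mul_comm, zpow_mul, zpow_natCast]
      rwa [h2] at h1
  have h1 : ∫⁻ q, Ψ q ∂S.μ ≤ ∑' j, ∫⁻ q, (A j).indicator Ψ q ∂S.μ := by
    rw [← lintegral_tsum (fun j => hΨ.indicator₀ (hAm j))]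
    refine lintegral_mono_ae ?_
    filter_upwards [ae_mem_M] with q hq
    obtain ⟨j, hj⟩ := hcov q hq
    refine le_trans ?_ (ENNReal.le_tsum j)
    rw [Set.indicator_of_mem hj]
  have h2 : ∀ j, ∫⁻ q, (A j).indicator Ψ q ∂S.μ ≤
      c j * ∫⁻ q in {q | 1 ≤ ‖X₀ q‖ ∧ ‖X₀ q‖ ≤ 2 ^ K}, Θ q ∂S.μ := by
    intro j
    set T : ℝ := (2 : ℝ) ^ j with hT
    have hTpos : 0 < T := zpow_pos two_pos _
    have ht : ((T : ℝ) : ℂ) ≠ 0 := Complex.ofReal_ne_zero.2 hTpos.ne'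
    have hsc := lintegral_act (e := e) hi ht (hΨ.indicator₀ (hAm j))
    have hn : ‖((T : ℝ) : ℂ) ^ N‖ ^ (2 * n) = T ^ (2 * n * N) := by
      rw [norm_pow, Complex.norm_real, Real.norm_of_nonneg hTpos.le, ← pow_mul]
      congr 1
      ring
    rw [hn] at hsc
    have h3 : ∫⁻ q, (A j).indicator Ψ q ∂S.μ = ENNReal.ofReal (T ^ (2 * n * N)) *
        ∫⁻ q, (A j).indicator Ψ (act N e (T : ℂ) q) ∂S.μ := by
      rw [hsc, ← mul_assoc, ← ENNReal.ofReal_mul (by positivity),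
        mul_inv_cancel₀ (by positivity), ENNReal.ofReal_one, one_mul]
    rw [h3, ← lintegral_indicator₀ hA0, ← lintegral_const_mul' _ _ ENNReal.ofReal_ne_top,
      ← lintegral_const_mul' _ _ (hcfin j)]
    refine lintegral_mono_ae ?_
    filter_upwards [ae_mem_M] with q hq
    have hmem : act N e (T : ℂ) q ∈ A j ↔ q ∈ {q | 1 ≤ ‖X₀ q‖ ∧ ‖X₀ q‖ ≤ 2 ^ K} := by
      simp only [hA, Set.mem_ofPred_eq]
      rw [hXh _ ht q hq, norm_mul, norm_pow, Complex.norm_real, Real.norm_of_nonneg hTpos.le,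
        ← hT]
      have hTK : 0 < T ^ K := by positivity
      constructor
      · rintro ⟨h1, h2⟩
        exact ⟨by nlinarith [(le_mul_iff_one_le_right hTK).1 h1],
          le_of_mul_le_mul_left h2 hTK⟩
      · rintro ⟨h1, h2⟩
        exact ⟨(le_mul_iff_one_le_right hTK).2 h1, mul_le_mul_of_nonneg_left h2 hTK.le⟩
    by_cases h4 : q ∈ {q | 1 ≤ ‖X₀ q‖ ∧ ‖X₀ q‖ ≤ 2 ^ K}
    · rw [Set.indicator_of_mem (hmem.2 h4), Set.indicator_of_mem h4]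
      exact hc j q hq h4.1 h4.2
    · rw [Set.indicator_of_notMem (fun h => h4 (hmem.1 h)), mul_zero]
      exact zero_le
  refine h1.trans ((ENNReal.tsum_le_tsum h2).trans ?_)
  rw [ENNReal.tsum_mul_right]

theorem tsum_dyad_lt_top {a b B : ℝ} (ha : 0 < a) (hb : 0 < b) (hB : 0 ≤ B) :
    ∑' j : ℤ, ENNReal.ofReal (B * min (((2 : ℝ) ^ j) ^ a) (((2 : ℝ) ^ j) ^ (-b))) < ⊤ := by
  have h0 : ∀ j : ℤ, 0 ≤ B * min (((2 : ℝ) ^ j) ^ a) (((2 : ℝ) ^ j) ^ (-b)) := fun j => by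
    have : (0 : ℝ) < (2 : ℝ) ^ j := zpow_pos two_pos _
    positivity
  have hs : Summable fun j : ℤ => B * min (((2 : ℝ) ^ j) ^ a) (((2 : ℝ) ^ j) ^ (-b)) := by
    refine Summable.mul_left B ?_
    have hra : (2 : ℝ) ^ (-a) < 1 := Real.rpow_lt_one_of_one_lt_of_neg one_lt_two (by linarith)
    have hrb : (2 : ℝ) ^ (-b) < 1 := Real.rpow_lt_one_of_one_lt_of_neg one_lt_two (by linarith)
    refine Summable.of_nat_of_neg ?_ ?_
    · refine Summable.of_nonneg_of_le (fun j => ?_) (fun j => ?_)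
        (summable_geometric_of_lt_one (by positivity) hrb)
      · have : (0 : ℝ) < (2 : ℝ) ^ (j : ℤ) := zpow_pos two_pos _
        positivity
      · refine (min_le_right _ _).trans (le_of_eq ?_)
        rw [zpow_natCast, ← Real.rpow_natCast, ← Real.rpow_natCast, ← Real.rpow_mul two_pos.le,
          ← Real.rpow_mul two_pos.le, mul_comm]
    · refine Summable.of_nonneg_of_le (fun j => ?_) (fun j => ?_)
        (summable_geometric_of_lt_one (by positivity) hra)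
      · have : (0 : ℝ) < (2 : ℝ) ^ (-(j : ℤ)) := zpow_pos two_pos _
        positivity
      · refine (min_le_left _ _).trans (le_of_eq ?_)
        rw [zpow_neg, zpow_natCast, ← Real.rpow_natCast, ← Real.rpow_natCast,
          ← Real.rpow_neg two_pos.le, ← Real.rpow_mul two_pos.le,
          ← Real.rpow_mul two_pos.le]
        congr 1
        ring
  exact lt_top_iff_ne_top.2 hs.tsum_ofReal_ne_top


/-! ### The main integral -/

/-- The factor of the total weight which is used for the convergence. -/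
noncomputable def gW (ε M₁ : ℝ) (X₀ : (Fin n → ℂ) × ℂ → ℂ) (q : (Fin n → ℂ) × ℂ) : ℝ :=
  Real.exp (-(ε * Real.log (‖X₀ q‖ ^ 2) + M₁ * zW q))

theorem zW_act {T : ℝ} (hT : 0 < T) (q : (Fin n → ℂ) × ℂ) :
    zW (act N e (T : ℂ) q) = Real.log (1 + T ^ (2 * N) * ∑ j, ‖q.1 j‖ ^ 2) := by
  unfold zW
  congr 2
  rw [Finset.mul_sum]
  refine Finset.sum_congr rfl fun j _ => ?_
  simp only [act]
  rw [norm_mul, norm_pow, Complex.norm_real, Real.norm_of_nonneg hT.le, mul_pow, ← pow_mul,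
    mul_comm N 2]

theorem g_le {T x s c0 : ℝ} (hT : 0 < T) (hx : 1 ≤ x) (hc0 : 0 < c0) (hs : c0 ^ 2 ≤ s)
    (hε : 0 ≤ ε) (hM : 0 ≤ M₁) (K N : ℕ) :
    Real.exp (-(ε * Real.log ((T ^ K * x) ^ 2) + M₁ * Real.log (1 + T ^ (2 * N) * s))) ≤
      T ^ (-(2 * K * ε)) * (max 1 ((c0 ^ 2) ^ (-M₁)) * min 1 (T ^ (-(2 * N * M₁)))) := by
  have hx0 : 0 < x := by linarith
  have hs0 : 0 < s := lt_of_lt_of_le (by positivity) hs
  rw [neg_add, Real.exp_add]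
  refine mul_le_mul ?_ ?_ (Real.exp_pos _).le (by positivity)
  · rw [Real.rpow_def_of_pos hT, Real.log_pow, Real.log_mul (by positivity) hx0.ne', Real.log_pow]
    refine Real.exp_le_exp.2 ?_
    have h1 : 0 ≤ ε * (2 * Real.log x) := mul_nonneg hε (by
      have := Real.log_nonneg hx
      linarith)
    push_cast
    nlinarith [h1]
  · have hpos : 0 < T ^ (2 * N) * s := by positivity
    have h1 : Real.exp (-(M₁ * Real.log (1 + T ^ (2 * N) * s))) ≤ 1 := by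
      refine Real.exp_le_one_iff.2 ?_
      have := mul_nonneg hM (Real.log_nonneg (by linarith : 1 ≤ 1 + T ^ (2 * N) * s))
      linarith
    have h2 : Real.exp (-(M₁ * Real.log (1 + T ^ (2 * N) * s))) ≤
        (c0 ^ 2) ^ (-M₁) * T ^ (-(2 * N * M₁)) := by
      have h3 : Real.log (T ^ (2 * N) * c0 ^ 2) ≤ Real.log (1 + T ^ (2 * N) * s) := by
        refine Real.log_le_log (by positivity) ?_
        have : T ^ (2 * N) * c0 ^ 2 ≤ T ^ (2 * N) * s :=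
          mul_le_mul_of_nonneg_left hs (by positivity)
        linarith
      rw [Real.rpow_def_of_pos hT, Real.rpow_def_of_pos (by positivity), ← Real.exp_add]
      refine Real.exp_le_exp.2 ?_
      rw [Real.log_mul (by positivity) (by positivity), Real.log_pow] at h3
      have h4 := mul_le_mul_of_nonneg_left h3 hM
      push_cast at h4
      nlinarith [h4]
    have hm1 : 1 ≤ max 1 ((c0 ^ 2) ^ (-M₁)) := le_max_left _ _
    rw [mul_min_of_nonneg _ _ (by positivity)]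
    refine le_min ?_ ?_
    · rw [mul_one]
      exact h1.trans hm1
    · exact h2.trans (mul_le_mul_of_nonneg_right (le_max_right _ _) (by positivity))

theorem vv_act (hc : Coord S N e p ξ X₀ K) {t : ℂ} (ht : t ≠ 0) (hq : q ∈ S.M) :
    vv ξ ξ0 (act N e t q) = vv ξ ξ0 q := by
  unfold vv
  refine Finset.sum_congr rfl fun k _ => ?_
  rw [hc.inv k t ht q hq]

theorem main_integral (hs : Setup S N e p C k0) (hc : Coord S N e p ξ X₀ K) (hη : S.Holo η)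
    {l : ℤ} (hηh : ∀ t : ℂ, t ≠ 0 → ∀ q ∈ S.M, η (act N e t q) = t ^ l * η q)
    {W : (Fin n → ℂ) × ℂ → ℝ≥0∞} {c : ℝ} (hW : Weight S N e φ W c) (hcl : c < l + n * N)
    (hc0 : ∃ c0 > (0 : ℝ), ∀ q ∈ S.M, 1 ≤ ‖X₀ q‖ → ‖X₀ q‖ ≤ 2 ^ K → vv ξ ξ0 q ≤ r0 → c0 ≤ ‖q.1‖)
    (hint : ∀ r1 : ℝ, 0 < r1 → ∫⁻ q in {q | 1 ≤ ‖X₀ q‖ ∧ ‖X₀ q‖ ≤ 2 ^ K ∧ r1 ≤ vv ξ ξ0 q ∧
      vv ξ ξ0 q ≤ r0}, ENNReal.ofReal (‖η q‖ ^ 2) * W q ∂S.μ < ⊤) :
    ∃ ε > (0 : ℝ), ∃ M₁ : ℝ, 0 ≤ M₁ ∧ ∀ r1 : ℝ, 0 < r1 →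
      ∫⁻ q in {q | r1 ≤ vv ξ ξ0 q ∧ vv ξ ξ0 q ≤ r0},
        ENNReal.ofReal (‖η q‖ ^ 2) * W q * ENNReal.ofReal (gW ε M₁ X₀ q) ∂S.μ < ⊤ := by
  obtain ⟨c0, hc0pos, hc0⟩ := hc0
  set δ : ℝ := (l + n * N - c) / 2 with hδ
  have hδ0 : 0 < δ := by
    rw [hδ]
    linarith
  have hK : (0 : ℝ) < K := Nat.cast_pos.2 hc.K_pos
  have hN : (1 : ℝ) ≤ N := Nat.one_le_cast.2 hs.N_pos
  refine ⟨δ / K, by positivity, δ + 1, by positivity, fun r1 hr1 => ?_⟩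
  set ε : ℝ := δ / K with hε
  have hεpos : 0 < ε := by positivity
  have hKε : (K : ℝ) * ε = δ := by
    rw [hε]
    field_simp
  set B : ℝ := max 1 ((c0 ^ 2) ^ (-(δ + 1))) with hB
  have hBpos : 0 < B := lt_of_lt_of_le one_pos (le_max_left _ _)
  have hvm : AEMeasurable (fun q => vv ξ ξ0 q) S.μ := aemeasurable_of_cd (vv_cd hc.holo 1)
  have hXm : AEMeasurable (fun q => ‖X₀ q‖) S.μ :=
    (aestronglyMeasurable_of_CD (hc.X_holo.CD 0)).norm.aemeasurable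
  have hηm : AEMeasurable (fun q => ‖η q‖) S.μ :=
    (aestronglyMeasurable_of_CD (hη.CD 0)).norm.aemeasurable
  have hzm : AEMeasurable (fun q : (Fin n → ℂ) × ℂ => zW q) S.μ := aemeasurable_of_cd (zW_cd 1)
  have hgm : AEMeasurable (fun q => ENNReal.ofReal (gW ε (δ + 1) X₀ q)) S.μ := by
    unfold gW
    exact (Real.measurable_exp.comp_aemeasurable ((((Real.measurable_log.comp_aemeasurable
      (hXm.pow_const 2)).const_mul _).add (hzm.const_mul _)).neg)).ennreal_ofReal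
  set E : Set ((Fin n → ℂ) × ℂ) := {q | r1 ≤ vv ξ ξ0 q ∧ vv ξ ξ0 q ≤ r0} with hE
  have hEm : NullMeasurableSet E S.μ :=
    (nullMeasurableSet_le aemeasurable_const hvm).inter (nullMeasurableSet_le hvm aemeasurable_const)
  have hA0 : NullMeasurableSet {q | 1 ≤ ‖X₀ q‖ ∧ ‖X₀ q‖ ≤ 2 ^ K} S.μ :=
    (nullMeasurableSet_le aemeasurable_const hXm).inter
      (nullMeasurableSet_le hXm aemeasurable_const)
  have hf : AEMeasurable (fun q => ENNReal.ofReal (‖η q‖ ^ 2) * W q) S.μ :=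
    (hηm.pow_const 2).ennreal_ofReal.mul hW.aemeasurable
  rw [← lintegral_indicator₀ hEm]
  refine lt_of_le_of_lt (lintegral_le_tsum_dyad (S := S) (N := N) (e := e) (K := K) (X₀ := X₀)
    hs.Inv hXm hc.X_ne hc.K_pos hc.X_hom ((hf.mul hgm).indicator₀ hEm)
    (c := fun j : ℤ => ENNReal.ofReal (B * min (((2 : ℝ) ^ j) ^ (2 * δ))
      (((2 : ℝ) ^ j) ^ (-(2 * N * (δ + 1) - 2 * δ)))))
    (Θ := E.indicator fun q => ENNReal.ofReal (‖η q‖ ^ 2) * W q) ?_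
    (fun j => ENNReal.ofReal_ne_top)) ?_
  · intro j q hq h1 h2
    set T : ℝ := (2 : ℝ) ^ j with hT
    have hTpos : 0 < T := zpow_pos two_pos _
    have ht : ((T : ℝ) : ℂ) ≠ 0 := Complex.ofReal_ne_zero.2 hTpos.ne'
    have hmem : act N e (T : ℂ) q ∈ E ↔ q ∈ E := by
      simp only [hE, Set.mem_ofPred_eq]
      rw [vv_act hc ht hq]
    by_cases hqE : q ∈ E
    · rw [Set.indicator_of_mem hqE, Set.indicator_of_mem (hmem.2 hqE)]
      simp only [Pi.mul_apply]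
      rw [hηh _ ht q hq,
        hW.hom _ ht q hq, norm_mul, norm_zpow, Complex.norm_real, Real.norm_of_nonneg hTpos.le]
      have h3 : c0 ^ 2 ≤ ∑ j, ‖q.1 j‖ ^ 2 := by
        have h4 := hc0 q hq h1 h2 hqE.2
        have h5 : ‖q.1‖ ≤ Real.sqrt (∑ j, ‖q.1 j‖ ^ 2) := by
          refine (pi_norm_le_iff_of_nonneg (Real.sqrt_nonneg _)).2 fun i => ?_
          refine Real.le_sqrt_of_sq_le ?_
          exact Finset.single_le_sum (f := fun j => ‖q.1 j‖ ^ 2) (fun _ _ => by positivity)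
            (Finset.mem_univ i)
        have h6 := h4.trans h5
        have h7 : c0 ^ 2 ≤ (Real.sqrt (∑ j, ‖q.1 j‖ ^ 2)) ^ 2 :=
          pow_le_pow_left₀ hc0pos.le h6 2
        rwa [Real.sq_sqrt (Finset.sum_nonneg fun _ _ => by positivity)] at h7
      have hg : gW ε (δ + 1) X₀ (act N e (T : ℂ) q) ≤
          T ^ (-(2 * K * ε)) * (B * min 1 (T ^ (-(2 * N * (δ + 1))))) := by
        unfold gW
        rw [zW_act hTpos, hc.X_hom _ ht q hq, norm_mul, norm_pow, Complex.norm_real,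
          Real.norm_of_nonneg hTpos.le]
        exact g_le hTpos h1 hc0pos h3 hεpos.le (by positivity) K N
      have hfin : T ^ (2 * n * N) * ((T ^ l * ‖η q‖) ^ 2 * (T ^ (-2 * c) *
          gW ε (δ + 1) X₀ (act N e (T : ℂ) q))) ≤
          B * min (T ^ (2 * δ)) (T ^ (-(2 * N * (δ + 1) - 2 * δ))) * ‖η q‖ ^ 2 := by
        have e1 : T ^ (2 * n * N) * ((T ^ l) ^ 2 * (T ^ (-2 * c) * T ^ (-(2 * K * ε)))) =
            T ^ (2 * δ) := by
          rw [← Real.rpow_natCast T (2 * n * N), ← Real.rpow_intCast T l,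
            ← Real.rpow_natCast (T ^ (l : ℝ)) 2, ← Real.rpow_mul hTpos.le,
            ← Real.rpow_add hTpos, ← Real.rpow_add hTpos, ← Real.rpow_add hTpos]
          congr 1
          push_cast
          have : 2 * δ = l + n * N - c := by
            rw [hδ]
            ring
          nlinarith [hKε, this]
        calc T ^ (2 * n * N) * ((T ^ l * ‖η q‖) ^ 2 * (T ^ (-2 * c) *
              gW ε (δ + 1) X₀ (act N e (T : ℂ) q)))
            ≤ T ^ (2 * n * N) * ((T ^ l * ‖η q‖) ^ 2 * (T ^ (-2 * c) *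
              (T ^ (-(2 * K * ε)) * (B * min 1 (T ^ (-(2 * N * (δ + 1)))))))) := by
              gcongr
          _ = T ^ (2 * n * N) * ((T ^ l) ^ 2 * (T ^ (-2 * c) * T ^ (-(2 * K * ε)))) *
              (B * min 1 (T ^ (-(2 * N * (δ + 1))))) * ‖η q‖ ^ 2 := by ring
          _ = B * (T ^ (2 * δ) * min 1 (T ^ (-(2 * N * (δ + 1))))) * ‖η q‖ ^ 2 := by
              rw [e1]
              ring
          _ = _ := by
              rw [mul_min_of_nonneg _ _ (by positivity), mul_one, ← Real.rpow_add hTpos]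
              congr 5
              ring
      calc ENNReal.ofReal (T ^ (2 * n * N)) * (ENNReal.ofReal ((T ^ l * ‖η q‖) ^ 2) *
            (ENNReal.ofReal (T ^ (-2 * c)) * W q) *
            ENNReal.ofReal (gW ε (δ + 1) X₀ (act N e (T : ℂ) q)))
          = ENNReal.ofReal (T ^ (2 * n * N) * ((T ^ l * ‖η q‖) ^ 2 * (T ^ (-2 * c) *
              gW ε (δ + 1) X₀ (act N e (T : ℂ) q)))) * W q := by
            rw [ENNReal.ofReal_mul (by positivity), ENNReal.ofReal_mul (by positivity),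
              ENNReal.ofReal_mul (by positivity)]
            ring
        _ ≤ ENNReal.ofReal (B * min (T ^ (2 * δ)) (T ^ (-(2 * N * (δ + 1) - 2 * δ))) *
              ‖η q‖ ^ 2) * W q := by
            gcongr
        _ = _ := by
            rw [ENNReal.ofReal_mul (by positivity)]
            ring
    · rw [Set.indicator_of_notMem (fun h => hqE (hmem.1 h)), mul_zero]
      exact zero_le
  · refine ENNReal.mul_lt_top (tsum_dyad_lt_top (by positivity) ?_ hBpos.le) ?_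
    · nlinarith
    · rw [← lintegral_indicator₀ hA0]
      have h1 := hint r1 hr1
      have hset : {q | 1 ≤ ‖X₀ q‖ ∧ ‖X₀ q‖ ≤ 2 ^ K ∧ r1 ≤ vv ξ ξ0 q ∧ vv ξ ξ0 q ≤ r0} =
          {q | 1 ≤ ‖X₀ q‖ ∧ ‖X₀ q‖ ≤ 2 ^ K} ∩ E := by
        ext q
        simp only [hE, Set.mem_ofPred_eq, Set.mem_inter_iff, and_assoc]
      rw [hset, ← lintegral_indicator₀ (hA0.inter hEm)] at h1
      refine lt_of_le_of_lt (le_of_eq (lintegral_congr fun q => ?_)) h1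
      rw [Set.indicator_indicator]

/-- The integral of the data. -/
theorem data_integral (hs : Setup S N e p C k0) (hc : Coord S N e p ξ X₀ K) (hη : S.Holo η)
    {l : ℤ} (hηh : ∀ t : ℂ, t ≠ 0 → ∀ q ∈ S.M, η (act N e t q) = t ^ l * η q)
    {W : (Fin n → ℂ) × ℂ → ℝ≥0∞} {c : ℝ} (hW : Weight S N e φ W c) (hcl : c < l + n * N)
    (hr : 0 < r0)
    (hc0 : ∃ c0 > (0 : ℝ), ∀ q ∈ S.M, 1 ≤ ‖X₀ q‖ → ‖X₀ q‖ ≤ 2 ^ K → vv ξ ξ0 q ≤ r0 → c0 ≤ ‖q.1‖)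
    (hint : ∀ r1 : ℝ, 0 < r1 → ∫⁻ q in {q | 1 ≤ ‖X₀ q‖ ∧ ‖X₀ q‖ ≤ 2 ^ K ∧ r1 ≤ vv ξ ξ0 q ∧
      vv ξ ξ0 q ≤ r0}, ENNReal.ofReal (‖η q‖ ^ 2) * W q ∂S.μ < ⊤) :
    ∃ ε > (0 : ℝ), ∃ M₁ : ℝ, 0 ≤ M₁ ∧ ∀ A : ℝ, 0 ≤ A → ∃ A' : ℝ, 0 ≤ A' ∧ ∀ k,
      ∫⁻ q, ENNReal.ofReal (aa ξ ξ0 r0 A η q * Real.exp (-bigW φ ε M₁ ξ X₀ p k q)) ∂S.μ ≤
        ENNReal.ofReal A' := by
  obtain ⟨ε, hε, M₁, hM₁, hmain⟩ := main_integral hs hc hη hηh hW hcl hc0 hint
  refine ⟨ε, hε, M₁, hM₁, fun A hA => ?_⟩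
  have hI := hmain (r0 / 2) (by positivity)
  set E : Set ((Fin n → ℂ) × ℂ) := {q | r0 / 2 ≤ vv ξ ξ0 q ∧ vv ξ ξ0 q ≤ r0} with hE
  set I : ℝ≥0∞ := ∫⁻ q in E, ENNReal.ofReal (‖η q‖ ^ 2) * W q *
    ENNReal.ofReal (gW ε M₁ X₀ q) ∂S.μ with hIdef
  refine ⟨A * I.toReal, by positivity, fun k => ?_⟩
  have hvm : AEMeasurable (fun q => vv ξ ξ0 q) S.μ := aemeasurable_of_cd (vv_cd hc.holo 1)
  have hEm : NullMeasurableSet E S.μ :=
    (nullMeasurableSet_le aemeasurable_const hvm).inter (nullMeasurableSet_le hvm aemeasurable_const)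
  rw [ENNReal.ofReal_mul hA, ENNReal.ofReal_toReal hI.ne, hIdef, ← lintegral_indicator₀ hEm,
    ← lintegral_const_mul' _ _ ENNReal.ofReal_ne_top]
  refine lintegral_mono_ae ?_
  filter_upwards [ae_mem_M] with q hq
  unfold aa
  by_cases hqE : q ∈ E
  · rw [Set.indicator_of_mem hqE, Set.indicator_of_mem hqE]
    have h1 : Real.exp (-bigW φ ε M₁ ξ X₀ p k q) ≤ Real.exp (-φ k q) * gW ε M₁ X₀ q := by
      unfold gW bigW
      rw [← Real.exp_add]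
      refine Real.exp_le_exp.2 ?_
      have h2 := mul_nonneg hε.le (thW_nonneg ξ q)
      have h3 : 0 ≤ ((k : ℝ) + 1)⁻¹ * p q.1 :=
        mul_nonneg (by positivity) (exh_nonneg hs.exh hq.1)
      nlinarith
    calc ENNReal.ofReal (A * ‖η q‖ ^ 2 * Real.exp (-bigW φ ε M₁ ξ X₀ p k q))
        ≤ ENNReal.ofReal (A * ‖η q‖ ^ 2 * (Real.exp (-φ k q) * gW ε M₁ X₀ q)) := by gcongr
      _ = ENNReal.ofReal A * (ENNReal.ofReal (‖η q‖ ^ 2) *
            ENNReal.ofReal (Real.exp (-φ k q)) * ENNReal.ofReal (gW ε M₁ X₀ q)) := by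
          rw [ENNReal.ofReal_mul (by positivity), ENNReal.ofReal_mul hA,
            ENNReal.ofReal_mul (Real.exp_pos _).le]
          ring
      _ ≤ _ := by
          gcongr
          exact hW.exp_le k hq
  · rw [Set.indicator_of_notMem hqE, Set.indicator_of_notMem hqE, zero_mul, ENNReal.ofReal_zero]
    exact zero_le

/-- Integrability off the orbit over the bounded sets. -/
theorem off_integral (hs : Setup S N e p C k0) (hc : Coord S N e p ξ X₀ K) (hη : S.Holo η)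
    {l : ℤ} (hηh : ∀ t : ℂ, t ≠ 0 → ∀ q ∈ S.M, η (act N e t q) = t ^ l * η q)
    {W : (Fin n → ℂ) × ℂ → ℝ≥0∞} {c : ℝ} (hW : Weight S N e φ W c) (hcl : c < l + n * N)
    (hc0 : ∃ c0 > (0 : ℝ), ∀ q ∈ S.M, 1 ≤ ‖X₀ q‖ → ‖X₀ q‖ ≤ 2 ^ K → vv ξ ξ0 q ≤ r0 → c0 ≤ ‖q.1‖)
    (hint : ∀ r1 : ℝ, 0 < r1 → ∫⁻ q in {q | 1 ≤ ‖X₀ q‖ ∧ ‖X₀ q‖ ≤ 2 ^ K ∧ r1 ≤ vv ξ ξ0 q ∧
      vv ξ ξ0 q ≤ r0}, ENNReal.ofReal (‖η q‖ ^ 2) * W q ∂S.μ < ⊤) (R r1 : ℝ) (h1 : 0 < r1) :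
    ∫⁻ q in {q | ‖q.1‖ ≤ R ∧ r1 ≤ vv ξ ξ0 q ∧ vv ξ ξ0 q ≤ r0},
      ENNReal.ofReal (‖η q‖ ^ 2) * W q ∂S.μ < ⊤ := by
  obtain ⟨ε, hε, M₁, hM₁, hmain⟩ := main_integral hs hc hη hηh hW hcl hc0 hint
  have hI := hmain r1 h1
  obtain ⟨b, hb⟩ := hc.X_loc R
  set b' : ℝ := max b 1 with hb'
  have hb'pos : 0 < b' := lt_of_lt_of_le one_pos (le_max_right _ _)
  set κ : ℝ := Real.exp (-(ε * Real.log (b' ^ 2) + M₁ * Real.log (1 + n * R ^ 2))) with hκ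
  have hκpos : 0 < κ := Real.exp_pos _
  have hvm : AEMeasurable (fun q => vv ξ ξ0 q) S.μ := aemeasurable_of_cd (vv_cd hc.holo 1)
  set E : Set ((Fin n → ℂ) × ℂ) := {q | r1 ≤ vv ξ ξ0 q ∧ vv ξ ξ0 q ≤ r0} with hE
  have hEm : NullMeasurableSet E S.μ :=
    (nullMeasurableSet_le aemeasurable_const hvm).inter (nullMeasurableSet_le hvm aemeasurable_const)
  have hRm : NullMeasurableSet {q : (Fin n → ℂ) × ℂ | ‖q.1‖ ≤ R} S.μ :=
    (measurableSet_le (by fun_prop) measurable_const).nullMeasurableSet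
  have hset : {q | ‖q.1‖ ≤ R ∧ r1 ≤ vv ξ ξ0 q ∧ vv ξ ξ0 q ≤ r0} =
      {q : (Fin n → ℂ) × ℂ | ‖q.1‖ ≤ R} ∩ E := by
    ext q
    simp only [hE, Set.mem_ofPred_eq, Set.mem_inter_iff]
  rw [hset, ← lintegral_indicator₀ (hRm.inter hEm)]
  rw [← lintegral_indicator₀ hEm] at hI
  have hfin : ENNReal.ofReal κ⁻¹ * ∫⁻ q, E.indicator (fun q => ENNReal.ofReal (‖η q‖ ^ 2) * W q *
      ENNReal.ofReal (gW ε M₁ X₀ q)) q ∂S.μ < ⊤ := ENNReal.mul_lt_top ENNReal.ofReal_lt_top hI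
  refine lt_of_le_of_lt ?_ hfin
  rw [← lintegral_const_mul' _ _ ENNReal.ofReal_ne_top]
  refine lintegral_mono_ae ?_
  filter_upwards [ae_mem_M] with q hq
  by_cases hqE : q ∈ {q : (Fin n → ℂ) × ℂ | ‖q.1‖ ≤ R} ∩ E
  · rw [Set.indicator_of_mem hqE, Set.indicator_of_mem hqE.2]
    have hqR : ‖q.1‖ ≤ R := hqE.1
    have hX : 0 < ‖X₀ q‖ := norm_pos_iff.2 (hc.X_ne q hq)
    have h2 : κ ≤ gW ε M₁ X₀ q := by
      unfold gW
      refine Real.exp_le_exp.2 (neg_le_neg ?_)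
      have h3 : Real.log (‖X₀ q‖ ^ 2) ≤ Real.log (b' ^ 2) := by
        refine Real.log_le_log (by positivity) (pow_le_pow_left₀ hX.le ?_ 2)
        exact (hb q hq hqR).trans (le_max_left _ _)
      have h4 : zW q ≤ Real.log (1 + n * R ^ 2) := by
        unfold zW
        refine Real.log_le_log (by positivity) ?_
        have h5 : ∑ j, ‖q.1 j‖ ^ 2 ≤ ∑ _j : Fin n, R ^ 2 := by
          refine Finset.sum_le_sum fun j _ => pow_le_pow_left₀ (norm_nonneg _) ?_ 2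
          exact (norm_le_pi_norm q.1 j).trans hqR
        rw [Finset.sum_const, Finset.card_univ, Fintype.card_fin, nsmul_eq_mul] at h5
        linarith
      exact add_le_add (mul_le_mul_of_nonneg_left h3 hε.le) (mul_le_mul_of_nonneg_left h4 hM₁)
    have h6 : (1 : ℝ≥0∞) ≤ ENNReal.ofReal κ⁻¹ * ENNReal.ofReal (gW ε M₁ X₀ q) := by
      rw [← ENNReal.ofReal_mul (by positivity), ← ENNReal.ofReal_one]
      refine ENNReal.ofReal_le_ofReal ?_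
      rw [le_inv_mul_iff₀ hκpos, mul_one]
      exact h2
    calc ENNReal.ofReal (‖η q‖ ^ 2) * W q = 1 * (ENNReal.ofReal (‖η q‖ ^ 2) * W q) := by
          rw [one_mul]
      _ ≤ (ENNReal.ofReal κ⁻¹ * ENNReal.ofReal (gW ε M₁ X₀ q)) *
          (ENNReal.ofReal (‖η q‖ ^ 2) * W q) := by gcongr
      _ = _ := by ring
  · rw [Set.indicator_of_notMem hqE]
    exact zero_le

end Vale.Agent.P271.Glob
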