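import Vale.Agent.P271.GLOB.Data

/-!
P271, block GLOB-A: the pointwise estimate of the data, growth, lower bound for the weights.
-/

open MeasureTheory Filter Topology
open scoped ENNReal NNReal ComplexConjugate

namespace Vale.Agent.P271.Glob

open Vale.Agent.P282.L2 Vale.Agent.P282.L2.Sheets

variable {n N' : ℕ} {S : Sheets n N'} {N e : ℕ} {q : (Fin n → ℂ) × ℂ}
  {r : ℕ} {φ : ℕ → (Fin n → ℂ) × ℂ → ℝ} {ε M₁ : ℝ} {ξ : Fin r → (Fin n → ℂ) × ℂ → ℂ}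
  {X₀ : (Fin n → ℂ) × ℂ → ℂ} {p : (Fin n → ℂ) → ℝ} {C : ℝ} {k0 K : ℕ}
  {ξ0 : Fin r → ℂ} {η : (Fin n → ℂ) × ℂ → ℂ} {r0 : ℝ}

theorem cs_sum (a b : Fin r → ℂ) :
    ‖∑ l, a l * conj (b l)‖ ^ 2 ≤ (∑ l, ‖a l‖ ^ 2) * ∑ l, ‖b l‖ ^ 2 := by
  have h1 : ‖∑ l, a l * conj (b l)‖ ≤ ∑ l, ‖a l‖ * ‖b l‖ := by
    refine (norm_sum_le _ _).trans (le_of_eq (Finset.sum_congr rfl fun l _ => ?_))
    rw [norm_mul, RCLike.norm_conj]
  calc ‖∑ l, a l * conj (b l)‖ ^ 2 ≤ (∑ l, ‖a l‖ * ‖b l‖) ^ 2 :=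
        pow_le_pow_left₀ (norm_nonneg _) h1 2
    _ ≤ _ := Finset.sum_mul_sq_le_sq_mul_sq _ _ _

theorem sum_xi_le (h : vv ξ ξ0 q ≤ r0) :
    1 + ∑ l, ‖ξ l q‖ ^ 2 ≤ 1 + 2 * r0 + 2 * ∑ l, ‖ξ0 l‖ ^ 2 := by
  have h1 : ∑ l, ‖ξ l q‖ ^ 2 ≤ 2 * vv ξ ξ0 q + 2 * ∑ l, ‖ξ0 l‖ ^ 2 := by
    rw [vv, Finset.mul_sum, Finset.mul_sum, ← Finset.sum_add_distrib]
    refine Finset.sum_le_sum fun l _ => ?_
    have h2 : ‖ξ l q‖ ≤ ‖ξ l q - ξ0 l‖ + ‖ξ0 l‖ := by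
      have := norm_add_le (ξ l q - ξ0 l) (ξ0 l)
      simpa using this
    nlinarith [sq_nonneg (‖ξ l q - ξ0 l‖ - ‖ξ0 l‖), norm_nonneg (ξ l q), norm_nonneg (ξ0 l),
      norm_nonneg (ξ l q - ξ0 l)]
  linarith

/-- The pointwise estimate of the data by the Levi form of the weights. -/
theorem data_est (hp : Exh S.V p C k0) (hφ : ∀ k, S.CD 2 (fun q => (φ k q : ℂ)))
    (hφl : ∀ k, ∀ q ∈ S.M, ∀ β : Fin n → ℂ, 0 ≤ S.levi (φ k) β q)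
    (hξ : ∀ k, S.Holo (ξ k)) (hX : S.Holo X₀) (h0 : ∀ q ∈ S.M, X₀ q ≠ 0) (hη : S.Holo η)
    (hε : 0 < ε) (hM : 0 ≤ M₁) (hr : 0 < r0) :
    ∃ A : ℝ, 0 ≤ A ∧ ∀ k, ∀ q ∈ S.M, ∀ β : Fin n → ℂ,
      ‖∑ j, alp S ξ ξ0 r0 η j q * conj (β j)‖ ^ 2 ≤
        aa ξ ξ0 r0 A η q * S.levi (bigW φ ε M₁ ξ X₀ p k) β q := by
  obtain ⟨B, hB0, hB⟩ := exists_deriv_cut
  set R1 : ℝ := 1 + 2 * r0 + 2 * ∑ l, ‖ξ0 l‖ ^ 2 with hR1
  have hR1pos : 0 < R1 := by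
    have : 0 ≤ ∑ l, ‖ξ0 l‖ ^ 2 := Finset.sum_nonneg fun _ _ => by positivity
    linarith
  refine ⟨(B * r0⁻¹) ^ 2 * r0 * R1 ^ 2 * ε⁻¹, by positivity, fun k q hq β => ?_⟩
  set Q : ℝ := ∑ l, ‖∑ j, S.D j (ξ l) q * β j‖ ^ 2 with hQ
  have hQ0 : 0 ≤ Q := Finset.sum_nonneg fun _ _ => by positivity
  set c' : ℝ := deriv cut (r0⁻¹ * vv ξ ξ0 q) * r0⁻¹ with hc'
  have hlev := bigW_levi (k := k) (M₁ := M₁) hp hφ hφl hξ hX h0 hε.le hM hq β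
  have hsum : ∑ j, alp S ξ ξ0 r0 η j q * conj (β j) = (c' : ℂ) * η q *
      ∑ l, (ξ l q - ξ0 l) * conj (∑ j, S.D j (ξ l) q * β j) := by
    have h1 : ∀ j, alp S ξ ξ0 r0 η j q * conj (β j) = ∑ l, (c' : ℂ) * η q *
        ((ξ l q - ξ0 l) * (conj (S.D j (ξ l) q) * conj (β j))) := by
      intro j
      rw [alp_eq hξ hη hq, ← hc', ← Finset.mul_sum, mul_assoc _ _ (conj (β j)), Finset.sum_mul]
      congr 1
      refine Finset.sum_congr rfl fun l _ => ?_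
      ring
    simp only [h1]
    rw [Finset.sum_comm, Finset.mul_sum]
    refine Finset.sum_congr rfl fun l _ => ?_
    rw [← Finset.mul_sum, ← Finset.mul_sum, map_sum]
    simp only [map_mul]
  by_cases hq' : r0 / 2 ≤ vv ξ ξ0 q ∧ vv ξ ξ0 q ≤ r0
  · have haa : aa ξ ξ0 r0 ((B * r0⁻¹) ^ 2 * r0 * R1 ^ 2 * ε⁻¹) η q =
        (B * r0⁻¹) ^ 2 * r0 * R1 ^ 2 * ε⁻¹ * ‖η q‖ ^ 2 := by
      unfold aa
      exact Set.indicator_of_mem (s := {q | r0 / 2 ≤ vv ξ ξ0 q ∧ vv ξ ξ0 q ≤ r0}) hq' _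
    rw [haa, hsum, norm_mul, norm_mul, mul_pow, mul_pow, Complex.norm_real, Real.norm_eq_abs]
    have h2 : |c'| ≤ B * r0⁻¹ := by
      rw [hc', abs_mul, abs_of_pos (inv_pos.2 hr)]
      exact mul_le_mul_of_nonneg_right (hB _) (inv_nonneg.2 hr.le)
    have h3 : ‖∑ l, (ξ l q - ξ0 l) * conj (∑ j, S.D j (ξ l) q * β j)‖ ^ 2 ≤ r0 * Q :=
      (cs_sum _ _).trans (mul_le_mul_of_nonneg_right hq'.2 hQ0)
    have h4 : ε * (Q / R1 ^ 2) ≤ S.levi (bigW φ ε M₁ ξ X₀ p k) β q := by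
      refine le_trans ?_ hlev
      refine mul_le_mul_of_nonneg_left ?_ hε.le
      have h5 : 0 < 1 + ∑ l, ‖ξ l q‖ ^ 2 := by
        have : 0 ≤ ∑ l, ‖ξ l q‖ ^ 2 := Finset.sum_nonneg fun _ _ => by positivity
        linarith
      gcongr
      exact sum_xi_le hq'.2
    have h6 : |c'| ^ 2 ≤ (B * r0⁻¹) ^ 2 := pow_le_pow_left₀ (abs_nonneg _) h2 2
    calc |c'| ^ 2 * ‖η q‖ ^ 2 * ‖∑ l, (ξ l q - ξ0 l) * conj (∑ j, S.D j (ξ l) q * β j)‖ ^ 2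
        ≤ (B * r0⁻¹) ^ 2 * ‖η q‖ ^ 2 * (r0 * Q) := by gcongr
      _ = (B * r0⁻¹) ^ 2 * r0 * R1 ^ 2 * ε⁻¹ * ‖η q‖ ^ 2 * (ε * (Q / R1 ^ 2)) := by
          field_simp
      _ ≤ _ := mul_le_mul_of_nonneg_left h4 (by positivity)
  · have hc0 : c' = 0 := by
      rw [hc', deriv_cut_zero, zero_mul]
      by_contra hcon
      push Not at hcon
      apply hq'
      obtain ⟨h1, h2⟩ := hcon
      rw [le_inv_mul_iff₀ hr] at h1
      rw [inv_mul_le_iff₀ hr] at h2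
      constructor <;> linarith
    have haa : aa ξ ξ0 r0 ((B * r0⁻¹) ^ 2 * r0 * R1 ^ 2 * ε⁻¹) η q = 0 := by
      unfold aa
      exact Set.indicator_of_notMem (s := {q | r0 / 2 ≤ vv ξ ξ0 q ∧ vv ξ ξ0 q ≤ r0}) hq' _
    rw [haa, hsum, hc0]
    simp

/-! ### Growth -/

theorem one_le_p (hp : Exh S.V p C k0) (hq : q ∈ S.M) : 1 ≤ 1 + p q.1 := by
  have := exh_nonneg hp hq.1
  linarith

theorem Grow.pos (hp : Exh S.V p C k0) {X : (Fin n → ℂ) × ℂ → ℂ} (h : Grow S p X) :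
    ∃ (c : ℝ) (k : ℕ), 0 < c ∧ ∀ q ∈ S.M, ‖X q‖ ≤ c * (1 + p q.1) ^ k := by
  obtain ⟨c, k, hc⟩ := h
  refine ⟨|c| + 1, k, by positivity, fun q hq => (hc q hq).trans ?_⟩
  have h1 : (0 : ℝ) ≤ (1 + p q.1) ^ k := pow_nonneg (zero_le_one.trans (one_le_p hp hq)) _
  exact mul_le_mul_of_nonneg_right ((le_abs_self c).trans (by linarith)) h1

theorem Grow.of_le {X Y : (Fin n → ℂ) × ℂ → ℂ} (h : Grow S p X)
    (hXY : ∀ q ∈ S.M, ‖Y q‖ ≤ ‖X q‖) : Grow S p Y := by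
  obtain ⟨c, k, hc⟩ := h
  exact ⟨c, k, fun q hq => (hXY q hq).trans (hc q hq)⟩

theorem Grow.mul (hp : Exh S.V p C k0) {X Y : (Fin n → ℂ) × ℂ → ℂ} (hX : Grow S p X)
    (hY : Grow S p Y) : Grow S p (fun q => X q * Y q) := by
  obtain ⟨c, k, hc, h⟩ := hX.pos hp
  obtain ⟨c', k', hc', h'⟩ := hY.pos hp
  refine ⟨c * c', k + k', fun q hq => ?_⟩
  rw [norm_mul, pow_add]
  calc ‖X q‖ * ‖Y q‖ ≤ (c * (1 + p q.1) ^ k) * (c' * (1 + p q.1) ^ k') :=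
        mul_le_mul (h q hq) (h' q hq) (norm_nonneg _) ((norm_nonneg _).trans (h q hq))
    _ = _ := by ring

theorem Grow.const (_hp : Exh S.V p C k0) (c : ℂ) : Grow S p (fun _ => c) :=
  ⟨‖c‖, 0, fun q _ => by simp⟩

theorem Grow.sum (hp : Exh S.V p C k0) {ι : Type*} (s : Finset ι)
    {X : ι → (Fin n → ℂ) × ℂ → ℂ} (hX : ∀ i ∈ s, Grow S p (X i)) :
    Grow S p (fun q => ((∑ i ∈ s, ‖X i q‖ : ℝ) : ℂ)) := by
  classical
  induction s using Finset.induction_on with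
  | empty => exact ⟨0, 0, fun q _ => by simp⟩
  | insert a s ha ih =>
    obtain ⟨c, k, hc, h⟩ := (hX a (Finset.mem_insert_self _ _)).pos hp
    obtain ⟨c', k', hc', h'⟩ := (ih fun i hi => hX i (Finset.mem_insert_of_mem hi)).pos hp
    refine ⟨c + c', max k k', fun q hq => ?_⟩
    have h1 := one_le_p hp hq
    beta_reduce
    rw [Finset.sum_insert ha, Complex.ofReal_add]
    refine (norm_add_le _ _).trans ?_
    rw [add_mul]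
    refine add_le_add ?_ ?_
    · rw [Complex.norm_real, norm_norm]
      refine (h q hq).trans (mul_le_mul_of_nonneg_left ?_ hc.le)
      exact pow_le_pow_right₀ h1 (le_max_left _ _)
    · refine (h' q hq).trans (mul_le_mul_of_nonneg_left ?_ hc'.le)
      exact pow_le_pow_right₀ h1 (le_max_right _ _)

theorem alp_grow_one (hp : Exh S.V p C k0) (hξ : ∀ k, S.Holo (ξ k)) (hη : S.Holo η)
    (hηg : Grow S p η) (hr : 0 < r0) (hg : ∀ k j, Grow S p (S.D j (ξ k))) (j : Fin n) :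
    Grow S p (alp S ξ ξ0 r0 η j) := by
  obtain ⟨B, hB0, hB⟩ := exists_deriv_cut
  have h1 : Grow S p (fun q => ((B * r0⁻¹ * Real.sqrt r0 : ℝ) : ℂ) * (η q *
      ((∑ l, ‖S.D j (ξ l) q‖ : ℝ) : ℂ))) :=
    (Grow.const hp _).mul hp (hηg.mul hp (Grow.sum hp _ fun l _ => hg l j))
  refine h1.of_le fun q hq => ?_
  rw [alp_eq hξ hη hq]
  have hs : 0 ≤ ∑ l, ‖S.D j (ξ l) q‖ := Finset.sum_nonneg fun _ _ => norm_nonneg _
  rw [norm_mul, norm_mul, norm_mul, norm_mul, Complex.norm_real, Complex.norm_real,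
    Complex.norm_real, Real.norm_of_nonneg hs, Real.norm_eq_abs,
    Real.norm_of_nonneg (by positivity : 0 ≤ B * r0⁻¹ * Real.sqrt r0)]
  by_cases hq' : vv ξ ξ0 q ≤ r0
  · have h2 : |deriv cut (r0⁻¹ * vv ξ ξ0 q) * r0⁻¹| ≤ B * r0⁻¹ := by
      rw [abs_mul, abs_of_pos (inv_pos.2 hr)]
      exact mul_le_mul_of_nonneg_right (hB _) (inv_nonneg.2 hr.le)
    have h3 : ‖∑ l, (ξ l q - ξ0 l) * conj (S.D j (ξ l) q)‖ ≤
        Real.sqrt r0 * ∑ l, ‖S.D j (ξ l) q‖ := by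
      rw [Finset.mul_sum]
      refine (norm_sum_le _ _).trans (Finset.sum_le_sum fun l _ => ?_)
      rw [norm_mul, RCLike.norm_conj]
      refine mul_le_mul_of_nonneg_right ?_ (norm_nonneg _)
      refine Real.le_sqrt_of_sq_le (le_trans ?_ hq')
      exact Finset.single_le_sum (f := fun l => ‖ξ l q - ξ0 l‖ ^ 2)
        (fun _ _ => by positivity) (Finset.mem_univ l)
    calc |deriv cut (r0⁻¹ * vv ξ ξ0 q) * r0⁻¹| * ‖η q‖ *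
          ‖∑ l, (ξ l q - ξ0 l) * conj (S.D j (ξ l) q)‖
        ≤ (B * r0⁻¹) * ‖η q‖ * (Real.sqrt r0 * ∑ l, ‖S.D j (ξ l) q‖) := by gcongr
      _ = _ := by ring
  · rw [deriv_cut_zero, zero_mul, abs_zero, zero_mul, zero_mul]
    · positivity
    · right
      rw [lt_inv_mul_iff₀ hr]
      push Not at hq'
      linarith

theorem alp_grow (hp : Exh S.V p C k0) (hξ : ∀ k, S.Holo (ξ k)) (hη : S.Holo η)
    (hηg : Grow S p η) (hr : 0 < r0) (hg : ∀ k j, Grow S p (S.D j (ξ k))) :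
    ∃ (c : ℝ) (k : ℕ), ∀ q ∈ S.M, ∀ j, ‖alp S ξ ξ0 r0 η j q‖ ≤ c * (1 + p q.1) ^ k := by
  obtain ⟨c, k, h⟩ := Grow.sum hp Finset.univ
    (fun j _ => alp_grow_one (ξ0 := ξ0) hp hξ hη hηg hr hg j)
  refine ⟨c, k, fun q hq j => le_trans ?_ (h q hq)⟩
  rw [Complex.norm_real, Real.norm_of_nonneg (Finset.sum_nonneg fun _ _ => norm_nonneg _)]
  exact Finset.single_le_sum (f := fun j => ‖alp S ξ ξ0 r0 η j q‖) (fun _ _ => norm_nonneg _)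
    (Finset.mem_univ j)

/-- The total weights are bounded below. -/
theorem bigW_bdd (hp : Exh S.V p C k0) (hφ : ∀ k, ∃ b : ℝ, ∀ q ∈ S.M, b ≤ φ k q)
    (h0 : ∀ q ∈ S.M, X₀ q ≠ 0) (hX : Grow S p (fun q => (X₀ q)⁻¹))
    (hε : 0 ≤ ε) (hM : 0 ≤ M₁) (k : ℕ) :
    ∃ b : ℝ, ∀ q ∈ S.M, b ≤ bigW φ ε M₁ ξ X₀ p k q := by
  obtain ⟨b, hb⟩ := hφ k
  obtain ⟨c, K', hc, hX⟩ := hX.pos hp
  -- `a log (1 + x) ≤ x / (k + 1) + C`
  set a : ℝ := 2 * ε * K' with ha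
  have ha0 : 0 ≤ a := by positivity
  set δ : ℝ := ((k : ℝ) + 1)⁻¹ * (a + 1)⁻¹ with hδ
  have hδ0 : 0 < δ := by positivity
  refine ⟨b + (-(2 * ε * Real.log c) + (-(a * δ) + a * (Real.log δ + 1))), fun q hq => ?_⟩
  have hpq := exh_nonneg hp hq.1
  have h1 := one_le_p hp hq
  have hXpos : 0 < ‖X₀ q‖ := norm_pos_iff.2 (h0 q hq)
  have h2 : -(2 * Real.log c) - 2 * K' * Real.log (1 + p q.1) ≤ Real.log (‖X₀ q‖ ^ 2) := by
    have h3 : Real.log ‖(X₀ q)⁻¹‖ ≤ Real.log (c * (1 + p q.1) ^ K') :=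
      Real.log_le_log (by rw [norm_inv]; positivity) (hX q hq)
    rw [norm_inv, Real.log_inv, Real.log_mul hc.ne' (by positivity), Real.log_pow] at h3
    rw [Real.log_pow]
    push_cast
    linarith
  have h4 : Real.log (1 + p q.1) ≤ δ * (1 + p q.1) - Real.log δ - 1 := by
    have h5 := Real.log_le_sub_one_of_pos (mul_pos hδ0 (by linarith : 0 < 1 + p q.1))
    rw [Real.log_mul hδ0.ne' (by linarith)] at h5
    linarith
  have h6 : a * Real.log (1 + p q.1) ≤ a * (δ * (1 + p q.1) - Real.log δ - 1) :=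
    mul_le_mul_of_nonneg_left h4 ha0
  have h7 : a * δ * p q.1 ≤ ((k : ℝ) + 1)⁻¹ * p q.1 := by
    refine mul_le_mul_of_nonneg_right ?_ hpq
    rw [hδ]
    have h8 : a * (a + 1)⁻¹ ≤ 1 := by
      rw [mul_inv_le_iff₀ (by linarith)]
      linarith
    calc a * (((k : ℝ) + 1)⁻¹ * (a + 1)⁻¹) = ((k : ℝ) + 1)⁻¹ * (a * (a + 1)⁻¹) := by ring
      _ ≤ ((k : ℝ) + 1)⁻¹ * 1 := mul_le_mul_of_nonneg_left h8 (by positivity)
      _ = _ := mul_one _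
  have h9 := hb q hq
  have h10 := thW_nonneg ξ q
  have h11 := mul_nonneg hM (zW_nonneg q)
  have h12 : ε * (-(2 * Real.log c) - 2 * K' * Real.log (1 + p q.1)) ≤
      ε * (thW ξ q + Real.log (‖X₀ q‖ ^ 2)) :=
    mul_le_mul_of_nonneg_left (by linarith) hε
  unfold bigW
  have h13 : ε * (-(2 * Real.log c) - 2 * K' * Real.log (1 + p q.1)) =
      -(2 * ε * Real.log c) - a * Real.log (1 + p q.1) := by
    rw [ha]; ring
  nlinarith [h12, h13, h6, h7, h9, h10, h11]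

end Vale.Agent.P271.Glob
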