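import Vale.Agent.P271.GLOB.Main
import Vale.Agent.P271.GLOB.Dyad

/-!
P271, block GLOB-A: the global `L²` theorem.
-/

open MeasureTheory Filter Topology
open scoped ENNReal NNReal ComplexConjugate

namespace Vale.Agent.P271.Glob

open Vale.Agent.P282.L2 Vale.Agent.P282.L2.Sheets

theorem glob : GlobStatement := by
  intro n N' S N e p C k0 hs r ξ X₀ K hc ξ0 η l hη hηg hηh φ W c hW hcl r0 hr hc0 hint
  obtain ⟨ε, hε, M₁, hM, hdata⟩ := data_integral (ξ0 := ξ0) hs hc hη hηh hW hcl hr hc0 hint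
  exact glob_core hs hc hη hηg hηh hW hr hε hM hdata
    (fun R r1 h1 => off_integral hs hc hη hηh hW hcl hc0 hint R r1 h1)

end Vale.Agent.P271.Glob
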