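import Vale.Agent.P271.GLOB.Cond

/-!
P271, block GLOB-B: homogeneous elements of `K` are quotients of homogeneous elements of `R`;
functions on `M` which are homogeneous under the action come from homogeneous elements.
-/

namespace Vale.Agent.P271.Glob

open Vale.Agent.P271.Sch Vale.Agent.P271.Sch.GCone Vale.Agent.P271.H741 Vale.Agent.P282.L2

variable {n : ℕ} {C : GCone n}

/-- A homogeneous element of `R` (under the action) is in the corresponding graded piece. -/
theorem mem_of_hom {a : C.R} {k : ℕ}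
    (h : ∀ t : ℂˣ, scK C.A t (algebraMap C.R C.K a) =
      algebraMap ℂ C.K ((t : ℂ) ^ (k : ℤ)) * algebraMap C.R C.K a) : a ∈ C.A k := by
  classical
  have h2 : cpol a = Polynomial.C (algebraMap C.R C.K a) * Polynomial.X ^ k := by
    refine Polynomial.eq_of_infinite_eval_eq _ _ (infinite_units.mono ?_)
    rintro _ ⟨t, rfl⟩
    show Polynomial.eval _ _ = Polynomial.eval _ _
    rw [eval_cpol, h, Polynomial.eval_mul, Polynomial.eval_pow, Polynomial.eval_X,
      Polynomial.eval_C, zpow_natCast, map_pow]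
    ring
  have h3 : (DirectSum.decompose C.A a k : C.R) = a := by
    have h4 := congrArg (fun p => Polynomial.coeff p k) h2
    simp only [coeff_cpol, Polynomial.coeff_C_mul, Polynomial.coeff_X_pow, if_true, mul_one] at h4
    exact IsFractionRing.injective C.R C.K h4
  rw [← h3]
  exact (DirectSum.decompose C.A a k).2

theorem isNV_of_ne {b : C.R} (hb : b ≠ 0) : ∃ m, (DirectSum.decompose C.A b m : C.R) ≠ 0 := by
  classical
  by_contra hne
  push Not at hne
  apply hb
  rw [← DirectSum.sum_support_decompose C.A b]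
  exact Finset.sum_eq_zero fun m _ => hne m

/-- Homogeneous elements of `K` are quotients of homogeneous elements. -/
theorem exists_frac {κ : C.K} {d : ℤ} (hκ0 : κ ≠ 0)
    (hκ : ∀ t : ℂˣ, scK C.A t κ = algebraMap ℂ C.K ((t : ℂ) ^ d) * κ) :
    ∃ (a b : C.R) (i j : ℕ), a ∈ C.A i ∧ b ∈ C.A j ∧ b ≠ 0 ∧
      κ = algebraMap C.R C.K a / algebraMap C.R C.K b ∧ (i : ℤ) = d + j := by
  classical
  obtain ⟨a, b, hb, rfl⟩ := IsFractionRing.div_surjective (A := C.R) κ
  have hb0 : b ≠ 0 := nonZeroDivisors.ne_zero hb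
  have hbK : algebraMap C.R C.K b ≠ 0 := by
    intro h0
    exact hb0 (IsFractionRing.injective C.R C.K (by rw [h0, map_zero]))
  set κ : C.K := algebraMap C.R C.K a / algebraMap C.R C.K b with hκd
  have hab : κ * algebraMap C.R C.K b = algebraMap C.R C.K a := div_mul_cancel₀ _ hbK
  obtain ⟨m, hm⟩ := isNV_of_ne hb0
  set b' : C.R := (DirectSum.decompose C.A b m : C.R) with hb'
  have hb'K : algebraMap C.R C.K b' ≠ 0 := by
    intro h0
    exact hm (IsFractionRing.injective C.R C.K (by rw [h0, map_zero]))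
  have hb'm : b' ∈ C.A m := (DirectSum.decompose C.A b m).2
  have key : ∀ t : ℂˣ, algebraMap ℂ C.K ((t : ℂ) ^ d) * κ * (cpol b).eval (algebraMap ℂ C.K t) =
      (cpol a).eval (algebraMap ℂ C.K t) := by
    intro t
    rw [eval_cpol, eval_cpol, ← hab, map_mul, hκ]
  rcases d with δ | δ
  · have h2 : Polynomial.X ^ δ * (Polynomial.C κ * cpol b) = cpol a := by
      refine Polynomial.eq_of_infinite_eval_eq _ _ (infinite_units.mono ?_)
      rintro _ ⟨t, rfl⟩
      show Polynomial.eval _ _ = Polynomial.eval _ _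
      rw [← key t, Polynomial.eval_mul, Polynomial.eval_mul, Polynomial.eval_pow,
        Polynomial.eval_X, Polynomial.eval_C, Int.ofNat_eq_natCast, zpow_natCast, map_pow]
      ring
    have h3 := congrArg (fun p => Polynomial.coeff p (m + δ)) h2
    simp only [Polynomial.coeff_X_pow_mul, Polynomial.coeff_C_mul, coeff_cpol] at h3
    exact ⟨_, b', m + δ, m, (DirectSum.decompose C.A a (m + δ)).2, hb'm, hm,
      eq_div_of_mul_eq hb'K h3, by push_cast; rw [Int.ofNat_eq_natCast]; ring⟩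
  · have h2 : Polynomial.C κ * cpol b = Polynomial.X ^ (δ + 1) * cpol a := by
      refine Polynomial.eq_of_infinite_eval_eq _ _ (infinite_units.mono ?_)
      rintro _ ⟨t, rfl⟩
      show Polynomial.eval _ _ = Polynomial.eval _ _
      have h0 : algebraMap ℂ C.K (t : ℂ) ≠ 0 := by
        rw [Ne, FaithfulSMul.algebraMap_eq_zero_iff]
        exact t.ne_zero
      rw [Polynomial.eval_mul, Polynomial.eval_mul, ← key t, Polynomial.eval_pow,
        Polynomial.eval_X, Polynomial.eval_C, zpow_negSucc, map_inv₀, map_pow]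
      field_simp
    have h3 := congrArg (fun p => Polynomial.coeff p m) h2
    simp only [Polynomial.coeff_X_pow_mul', Polynomial.coeff_C_mul, coeff_cpol] at h3
    by_cases hδ : δ + 1 ≤ m
    · rw [if_pos hδ] at h3
      refine ⟨_, b', m - (δ + 1), m, (DirectSum.decompose C.A a (m - (δ + 1))).2, hb'm, hm,
        eq_div_of_mul_eq hb'K h3, ?_⟩
      rw [Int.negSucc_eq, Nat.cast_sub hδ]
      push_cast
      ring
    · rw [if_neg hδ] at h3
      exact absurd ((mul_eq_zero.1 h3).resolve_right hb'K) hκ0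

variable [Algebra (Pol (n + 1)) C.K] [IsScalarTower ℂ (Pol (n + 1)) C.K]
  [FaithfulSMul (Pol (n + 1)) C.K] (V : Cov C)

omit [IsScalarTower ℂ (Pol (n + 1)) C.K] in
theorem z_ne (i : Fin (n + 1)) : V.z i ≠ 0 := by
  intro h0
  have h1 := V.hz i
  rw [h0, map_zero, FaithfulSMul.algebraMap_eq_zero_iff] at h1
  exact MvPolynomial.X_ne_zero i h1

omit [IsScalarTower ℂ (Pol (n + 1)) C.K] in
/-- The same, including zero. -/
theorem exists_frac' {κ : C.K} {d : ℤ} (hκ : V.G.Hom κ d) :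
    ∃ (a b : C.R) (i j : ℕ), a ∈ C.A i ∧ b ∈ C.A j ∧ b ≠ 0 ∧
      κ = algebraMap C.R C.K a / algebraMap C.R C.K b ∧ (i : ℤ) = d + j := by
  by_cases h0 : κ = 0
  · have h1 : 0 ≤ d + (V.N * d.natAbs : ℕ) := by
      have h2 : (1 : ℤ) ≤ V.N := by exact_mod_cast V.N_pos
      have h3 : -d ≤ |d| := neg_le_abs d
      have h4 : |d| ≤ V.N * |d| := le_mul_of_one_le_left (abs_nonneg d) h2
      push_cast
      linarith
    refine ⟨0, V.z 0 ^ d.natAbs, (d + (V.N * d.natAbs : ℕ)).toNat, V.N * d.natAbs,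
      zero_mem _, ?_, pow_ne_zero _ (z_ne V 0), by rw [h0, map_zero, zero_div], ?_⟩
    · have := SetLike.pow_mem_graded (A := C.A) d.natAbs (V.z_mem 0)
      rwa [smul_eq_mul, mul_comm] at this
    · rw [Int.toNat_of_nonneg h1]
  · exact exists_frac h0 hκ

open Vale.Agent.P282.L2.Prim in
/-- Homogeneous functions on `M` come from homogeneous elements. -/
theorem hom_of_act {N' : ℕ} {S : Sheets (n + 1) N'} (hS : V.E.IsSheets S) {f : C.K}
    (hf : V.E.IsReg f) {l : ℤ}
    (h : ∀ t : ℂ, t ≠ 0 → ∀ q ∈ S.M, V.E.ev f (act V.N V.e t q) = t ^ l * V.E.ev f q) :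
    V.G.Hom f l := by
  intro t
  obtain ⟨h1, h2⟩ := V.H.isReg_τ hf t
  have h3 : V.E.IsReg (algebraMap ℂ C.K ((t : ℂ) ^ l) * f) := (isReg_const _).mul hf
  obtain ⟨z, hz'⟩ := (dense_nonzeros V.E.h0).nonempty
  have hz : z ∈ S.V := (hS.1 z).2 hz'
  have h4 : V.G.τ t f - algebraMap ℂ C.K ((t : ℂ) ^ l) * f = 0 := by
    refine eq_zero_of_ev hS (h1.sub h3) isOpen_univ ⟨z, trivial, hz⟩ fun q hq _ => ?_
    rw [ev_sub hS hq h1 h3, h2 hS q hq, ev_mul hS hq (isReg_const _) hf, ev_const hS hq]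
    exact sub_eq_zero.2 (h t t.ne_zero q hq)
  exact sub_eq_zero.1 h4

/-- Both together: the fraction `a/b` of a homogeneous function. -/
theorem exists_ab {N' : ℕ} {S : Sheets (n + 1) N'} (hS : V.E.IsSheets S) {f : C.K}
    (hf : V.E.IsReg f) {m : ℕ} {l : ℤ} (hl : l = (m : ℤ) - (n + 1) * V.N)
    (h : ∀ t : ℂ, t ≠ 0 → ∀ q ∈ S.M, V.E.ev f (act V.N V.e t q) = t ^ l * V.E.ev f q) :
    ∃ (a b : C.R) (i j : ℕ), a ∈ C.A i ∧ b ∈ C.A j ∧ b ≠ 0 ∧ i + (n + 1) * V.N = m + j ∧
      f = algebraMap C.R C.K a / algebraMap C.R C.K b := by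
  obtain ⟨a, b, i, j, ha, hb, hb0, hab, hij⟩ := exists_frac' V (hom_of_act V hS hf h)
  refine ⟨a, b, i, j, ha, hb, hb0, ?_, hab⟩
  rw [hl] at hij
  have : (i : ℤ) + (n + 1) * V.N = m + j := by rw [hij]; ring
  exact_mod_cast this

end Vale.Agent.P271.Glob
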