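import Vale.Agent.P271.GLOB.Core

/-!
P271, block GLOB-A: the global `L²` theorem from the two integral estimates.
-/

open MeasureTheory Filter Topology
open scoped ENNReal NNReal ComplexConjugate

namespace Vale.Agent.P271.Glob

open Vale.Agent.P282.L2 Vale.Agent.P282.L2.Sheets

variable {n N' : ℕ} {S : Sheets n N'} {N e : ℕ} {q : (Fin n → ℂ) × ℂ}
  {r : ℕ} {φ : ℕ → (Fin n → ℂ) × ℂ → ℝ} {ε M₁ : ℝ} {ξ : Fin r → (Fin n → ℂ) × ℂ → ℂ}
  {X₀ : (Fin n → ℂ) × ℂ → ℂ} {p : (Fin n → ℂ) → ℝ} {C : ℝ} {k0 K : ℕ}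
  {ξ0 : Fin r → ℂ} {η : (Fin n → ℂ) × ℂ → ℂ} {r0 c : ℝ} {l : ℤ} {W : (Fin n → ℂ) × ℂ → ℝ≥0∞}

theorem ofReal_sq_le (a b : ℂ) : ENNReal.ofReal (‖a‖ ^ 2) ≤
    2 * ENNReal.ofReal (‖a - b‖ ^ 2) + 2 * ENNReal.ofReal (‖b‖ ^ 2) := by
  have h1 : ‖a‖ ^ 2 ≤ 2 * ‖a - b‖ ^ 2 + 2 * ‖b‖ ^ 2 := by
    have h2 : ‖a‖ ≤ ‖a - b‖ + ‖b‖ := by
      have := norm_add_le (a - b) b
      simpa using this
    nlinarith [sq_nonneg (‖a - b‖ - ‖b‖), norm_nonneg a, norm_nonneg b, norm_nonneg (a - b)]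
  have h3 : (2 : ℝ≥0∞) = ENNReal.ofReal 2 := by norm_num
  rw [h3, ← ENNReal.ofReal_mul (by norm_num), ← ENNReal.ofReal_mul (by norm_num),
    ← ENNReal.ofReal_add (by positivity) (by positivity)]
  exact ENNReal.ofReal_le_ofReal h1

/-- The global `L²` theorem, given the two integral estimates. -/
theorem glob_core (hs : Setup S N e p C k0) (hc : Coord S N e p ξ X₀ K) (hη : S.Holo η)
    (hηg : Grow S p η) (hηh : ∀ t : ℂ, t ≠ 0 → ∀ q ∈ S.M, η (act N e t q) = t ^ l * η q)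
    (hW : Weight S N e φ W c) (hr : 0 < r0) (hε : 0 < ε) (hM : 0 ≤ M₁)
    (hdata : ∀ A : ℝ, 0 ≤ A → ∃ A' : ℝ, 0 ≤ A' ∧ ∀ k, ∫⁻ q, ENNReal.ofReal
      (aa ξ ξ0 r0 A η q * Real.exp (-bigW φ ε M₁ ξ X₀ p k q)) ∂S.μ ≤ ENNReal.ofReal A')
    (hoff : ∀ R r1 : ℝ, 0 < r1 → ∫⁻ q in {q | ‖q.1‖ ≤ R ∧ r1 ≤ vv ξ ξ0 q ∧ vv ξ ξ0 q ≤ r0},
      ENNReal.ofReal (‖η q‖ ^ 2) * W q ∂S.μ < ⊤) :
    ∃ F, GlobOut S N e ξ ξ0 η l W F := by
  have hp := hs.exh
  -- the data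
  obtain ⟨A, hA0, hA⟩ := data_est (ξ0 := ξ0) (η := η) hp hW.cd hW.levi hc.holo hc.X_holo hc.X_ne hη
    hε hM hr
  obtain ⟨A', hA'0, hA'⟩ := hdata A hA0
  have hvm := vv_aemeas (ξ0 := ξ0) hc.holo
  have haa : AEMeasurable (aa ξ ξ0 r0 A η) S.μ := by
    have h1 : NullMeasurableSet {q | r0 / 2 ≤ vv ξ ξ0 q ∧ vv ξ ξ0 q ≤ r0} S.μ :=
      (nullMeasurableSet_le aemeasurable_const hvm).inter
        (nullMeasurableSet_le hvm aemeasurable_const)
    have h2 : AEMeasurable (fun q => A * ‖η q‖ ^ 2) S.μ :=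
      ((aestronglyMeasurable_of_CD (hη.CD 0)).norm.aemeasurable.pow_const 2).const_mul A
    exact h2.indicator₀ h1
  -- Hörmander's theorem
  obtain ⟨u, hum, hub, huw⟩ := Dom.hormander_sing hp
    (fun m => bigW_cd (ε := ε) (M₁ := M₁) hp hW.cd hc.holo hc.X_holo hc.X_ne m)
    (fun m q hq => bigW_anti hp hW.anti m hq)
    (fun m => bigW_bdd hp hW.bdd hc.X_ne hc.X_grow hε.le hM m)
    (fun m q hq β => le_trans (by positivity) (bigW_levi hp hW.cd hW.levi hc.holo hc.X_holo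
      hc.X_ne hε.le hM m hq β))
    (alp S ξ ξ0 r0 η) (fun j => alp_cd hc.holo hη j)
    (fun q hq j k => alp_closed hc.holo hη hq j k)
    (alp_grow hp hc.holo hη hηg hr hc.grow)
    (fun _ => aa ξ ξ0 r0 A η) (fun _ q => aa_nonneg hA0 q) (fun _ => haa) hA hA'0 hA'
  -- the holomorphic function
  set σ : (Fin n → ℂ) × ℂ → ℂ := fun q => ((chi ξ ξ0 r0 q : ℝ) : ℂ) * η q with hσ
  have hσcd : ∀ k, S.CD k σ := chi_mul_cd hc.holo hη
  obtain ⟨F, hF, hFu⟩ := H408.weylM_sub (hσcd 1) hum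
    (fun T hT hTV => loc_sq hp hc hW.cd ENNReal.ofReal_lt_top (hub 0) hT hTV) huw
  -- the component of degree `l`
  obtain ⟨Fl, hFl, hFlh, hFla⟩ := Avg.avg (P := N) (e := e) hs.mem hF l
  have hσh : ∀ t : ℂ, ‖t‖ = 1 → ∀ q ∈ S.M, σ (act N e t q) = t ^ l * σ q := by
    intro t ht q hq
    have ht0 : t ≠ 0 := by
      rintro rfl
      simp at ht
    simp only [hσ, chi]
    rw [vv_inv hc ht0 hq, hηh t ht0 q hq]
    ring
  have hWm := weight_aemeas hW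
  have hWh : ∀ t : ℂ, ‖t‖ = 1 → ∀ q ∈ S.M, W (act N e t q) = W q := by
    intro t ht q hq
    have ht0 : t ≠ 0 := by
      rintro rfl
      simp at ht
    rw [hW.hom t ht0 q hq, ht, Real.one_rpow, ENNReal.ofReal_one, one_mul]
  -- the bound on `{‖z‖ ≤ R}`
  have hball : ∀ R : ℝ, MeasurableSet {q : (Fin n → ℂ) × ℂ | ‖q.1‖ ≤ R} := fun R =>
    measurableSet_le (measurable_fst.norm) measurable_const
  have htot := total_bound (ε := ε) (M₁ := M₁) hp hc hW hum hub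
  have hmain : ∀ R : ℝ, ∫⁻ q in {q : (Fin n → ℂ) × ℂ | ‖q.1‖ ≤ R},
      ENNReal.ofReal (‖Fl q - σ q‖ ^ 2) * W q ∂S.μ < ⊤ := by
    intro R
    refine lt_of_le_of_lt (hFla σ (hσcd 0) hσh _ (hball R).nullMeasurableSet ?_ W hWm hWh) ?_
    · intro t ht q _
      simp only [Set.mem_setOf_eq, norm_act_fst, ht, one_pow, one_mul]
    · obtain ⟨b, hb, hbρ⟩ := rho_lower (ξ := ξ) (X₀ := X₀) hc hε.le hM R
      have h1 : ∫⁻ q in {q : (Fin n → ℂ) × ℂ | ‖q.1‖ ≤ R},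
          ENNReal.ofReal (‖F q - σ q‖ ^ 2) * W q ∂S.μ ≤ ENNReal.ofReal b⁻¹ *
          ∫⁻ q, ENNReal.ofReal (‖u q‖ ^ 2) * (W q * ENNReal.ofReal (rho ε M₁ ξ X₀ q)) ∂S.μ := by
        rw [← lintegral_const_mul' _ _ ENNReal.ofReal_ne_top]
        refine le_trans ?_ (setLIntegral_le_lintegral {q : (Fin n → ℂ) × ℂ | ‖q.1‖ ≤ R} _)
        refine lintegral_mono_ae ?_
        rw [ae_restrict_iff' (hball R)]
        filter_upwards [ae_mem_M (S := S), hFu] with q hq hqF hqR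
        have h2 : ‖F q - σ q‖ = ‖u q‖ := by
          rw [← hqF]
          simp only [sub_sub_cancel_left, norm_neg]
        rw [h2]
        have h3 : (1 : ℝ≥0∞) ≤ ENNReal.ofReal b⁻¹ * ENNReal.ofReal (rho ε M₁ ξ X₀ q) := by
          rw [← ENNReal.ofReal_mul (by positivity), ← ENNReal.ofReal_one]
          refine ENNReal.ofReal_le_ofReal ?_
          rw [le_inv_mul_iff₀ hb, mul_one]
          exact hbρ q hq hqR
        calc ENNReal.ofReal (‖u q‖ ^ 2) * W q = 1 * (ENNReal.ofReal (‖u q‖ ^ 2) * W q) :=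
              (one_mul _).symm
          _ ≤ (ENNReal.ofReal b⁻¹ * ENNReal.ofReal (rho ε M₁ ξ X₀ q)) *
              (ENNReal.ofReal (‖u q‖ ^ 2) * W q) := by gcongr
          _ = _ := by ring
      exact h1.trans_lt (ENNReal.mul_lt_top ENNReal.ofReal_lt_top
        (htot.trans_lt ENNReal.ofReal_lt_top))
  have hmono : ∀ {T T' : Set ((Fin n → ℂ) × ℂ)} (_ : T ⊆ T') (f : (Fin n → ℂ) × ℂ → ℝ≥0∞),
      ∫⁻ q in T, f q ∂S.μ ≤ ∫⁻ q in T', f q ∂S.μ := fun h f => lintegral_mono_set h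
  refine ⟨Fl, ⟨hFl, hFlh, ⟨r0 / 2, by positivity, fun R => ?_⟩, fun R r1 hr1 => ?_⟩⟩
  · refine lt_of_le_of_lt ?_ (hmain R)
    have hms : NullMeasurableSet {q | ‖q.1‖ ≤ R ∧ vv ξ ξ0 q ≤ r0 / 2} S.μ :=
      (hball R).nullMeasurableSet.inter (nullMeasurableSet_le hvm aemeasurable_const)
    refine le_trans ?_ (hmono (T := {q | ‖q.1‖ ≤ R ∧ vv ξ ξ0 q ≤ r0 / 2}) (fun q hq => hq.1) _)
    refine le_of_eq (lintegral_congr_ae ?_)
    rw [EventuallyEq, ae_restrict_iff'₀ hms]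
    refine Eventually.of_forall fun q hq => ?_
    have : σ q = η q := by
      simp only [hσ]
      rw [chi_one hr hq.2]
      simp
    rw [this]
  · have hms : NullMeasurableSet {q | ‖q.1‖ ≤ R ∧ r1 ≤ vv ξ ξ0 q} S.μ :=
      (hball R).nullMeasurableSet.inter (nullMeasurableSet_le aemeasurable_const hvm)
    have h1 : ∫⁻ q in {q | ‖q.1‖ ≤ R ∧ r1 ≤ vv ξ ξ0 q}, ENNReal.ofReal (‖Fl q‖ ^ 2) * W q ∂S.μ ≤
        ∫⁻ q in {q | ‖q.1‖ ≤ R ∧ r1 ≤ vv ξ ξ0 q},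
          (2 * (ENNReal.ofReal (‖Fl q - σ q‖ ^ 2) * W q) +
            2 * (ENNReal.ofReal (‖σ q‖ ^ 2) * W q)) ∂S.μ := by
      refine lintegral_mono fun q => ?_
      calc ENNReal.ofReal (‖Fl q‖ ^ 2) * W q
          ≤ (2 * ENNReal.ofReal (‖Fl q - σ q‖ ^ 2) + 2 * ENNReal.ofReal (‖σ q‖ ^ 2)) * W q :=
            mul_le_mul_left (ofReal_sq_le _ _) _
        _ = _ := by ring
    refine h1.trans_lt ?_
    have hσm : AEMeasurable (fun q => 2 * (ENNReal.ofReal (‖σ q‖ ^ 2) * W q)) S.μ :=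
      (((aestronglyMeasurable_of_CD (hσcd 0)).norm.aemeasurable.pow_const 2).ennreal_ofReal.mul
        hWm).const_mul 2
    rw [lintegral_add_right' _ hσm.restrict, lintegral_const_mul' _ _ (by norm_num),
      lintegral_const_mul' _ _ (by norm_num)]
    refine ENNReal.add_lt_top.2 ⟨ENNReal.mul_lt_top (by norm_num) ?_,
      ENNReal.mul_lt_top (by norm_num) ?_⟩
    · exact lt_of_le_of_lt (hmono (fun q hq => hq.1) _) (hmain R)
    · -- only `vv ≤ r0` contributes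
      refine lt_of_le_of_lt ?_ (hoff R r1 hr1)
      have hms' : NullMeasurableSet {q | ‖q.1‖ ≤ R ∧ r1 ≤ vv ξ ξ0 q ∧ vv ξ ξ0 q ≤ r0} S.μ :=
        (hball R).nullMeasurableSet.inter ((nullMeasurableSet_le aemeasurable_const hvm).inter
          (nullMeasurableSet_le hvm aemeasurable_const))
      rw [← lintegral_indicator₀ hms, ← lintegral_indicator₀ hms']
      refine lintegral_mono fun q => ?_
      by_cases hq : q ∈ {q | ‖q.1‖ ≤ R ∧ r1 ≤ vv ξ ξ0 q}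
      · rw [Set.indicator_of_mem hq]
        by_cases hq2 : vv ξ ξ0 q ≤ r0
        · rw [Set.indicator_of_mem (show q ∈ {q | ‖q.1‖ ≤ R ∧ r1 ≤ vv ξ ξ0 q ∧ vv ξ ξ0 q ≤ r0}
            from ⟨hq.1, hq.2, hq2⟩)]
          refine mul_le_mul_left (ENNReal.ofReal_le_ofReal ?_) _
          refine pow_le_pow_left₀ (norm_nonneg _) ?_ 2
          simp only [hσ]
          rw [norm_mul, Complex.norm_real,
            Real.norm_of_nonneg (show 0 ≤ chi ξ ξ0 r0 q from cut_nonneg _)]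
          exact mul_le_of_le_one_left (norm_nonneg _) (cut_le_one _)
        · have h0 : σ q = 0 := by
            simp only [hσ]
            rw [chi_zero hr (le_of_lt (not_le.1 hq2))]
            simp
          rw [h0]
          simp
      · rw [Set.indicator_of_notMem hq]
        exact zero_le

end Vale.Agent.P271.Glob
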